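import Vale.Agent.P116.AStar
import Vale.Agent.P071.Riemann

/-! Step A: limits of candidates. -/

open Set Filter Topology MeasureTheory Metric Complex
open scoped ENNReal NNReal

noncomputable section
namespace Vale.Agent.P116

namespace ALim

variable {K Q : Set ℂ} {u v : ℕ → ℂ → ℝ} {u₀ v₀ χ : ℂ → ℝ} {δ : ℕ → ℝ} {ρ : ℕ → Cmp K → ℝ}
  {σ : Cmp K → ℝ}

/-- Convergence in energy. -/
structure Cv (K : Set ℂ) (u : ℕ → ℂ → ℝ) (u₀ : ℂ → ℝ) (δ : ℕ → ℝ) : Prop where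
  a : ∀ n, Adm K (u n)
  a0 : Adm K u₀
  i : ∀ n, IntegrableOn (fun z => ‖gr (u n - u₀) z‖ ^ 2) Kᶜ
  e : ∀ n, en Kᶜ (u n - u₀) ≤ δ n
  t : Tendsto δ atTop (𝓝 0)

/-- Uniform convergence on compact sets, with a rate. -/
def Su (K : Set ℂ) (u : ℕ → ℂ → ℝ) (u₀ : ℂ → ℝ) (δ : ℕ → ℝ) : Prop :=
  ∀ C, IsCompact C → C ⊆ Kᶜ → ∃ M, ∀ n, ∀ z ∈ C, |u n z - u₀ z| ≤ M * √(δ n)

theorem en_nonneg (S : Set ℂ) (θ : ℂ → ℝ) : 0 ≤ en S θ := integral_nonneg fun _ => sq_nonneg _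

theorem Cv.rt (h : Cv K u u₀ δ) : Tendsto (fun n => √(δ n)) atTop (𝓝 0) := by
  simpa only [Real.sqrt_zero] using h.t.sqrt

variable (adm : S_adm) (hs : S_sm) (cut : S_cut) (omB : S_omB) (omC : S_omC)

include adm omC in
theorem cut_lim (hK : IsCompact K) (hQ : Clo K Q) (hχ : Cut K Q χ) (h : Cv K u u₀ δ)
    (h' : Su K u u₀ δ) : Tendsto (fun n => en Kᶜ fun z => χ z * (u n - u₀) z) atTop (𝓝 0) := by
  obtain ⟨c1, c2, -⟩ := omC.cutsup K Q χ hK hQ hχ
  obtain ⟨M, hM⟩ := h' _ c1 (subset_compl_iff_disjoint_right.2 c2)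
  have i1 := (omC.cuten K Q χ (fun _ => 1) hK hQ hχ (adm.c1 K _ hK.isClosed contDiff_const)).1
  have t := (h.t.const_mul 2).add ((h.t.const_mul (M ^ 2)).mul_const
    (∫ z in Kᶜ, (1 : ℝ) ^ 2 * ‖gr χ z‖ ^ 2) |>.const_mul 2)
  simp only [mul_zero, zero_mul, add_zero] at t
  refine squeeze_zero (fun n => en_nonneg _ _) (fun n => ?_) t
  obtain ⟨k1, -, k3⟩ := omC.cuten K Q χ _ hK hQ hχ (adm.sub K _ _ hK.isClosed (h.a n) h.a0)
  have d0 := (en_nonneg _ _).trans (h.e n)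
  refine k3.trans (add_le_add (mul_le_mul_of_nonneg_left ((setIntegral_mono_set (h.i n)
    (.of_forall fun z => sq_nonneg _) (sdiff_subset_compl _ _).eventuallyLE).trans (h.e n))
    zero_le_two) (mul_le_mul_of_nonneg_left ?_ zero_le_two))
  rw [← integral_const_mul]
  refine integral_mono k1 (i1.const_mul _) fun z => ?_
  simp only [one_pow, one_mul]
  by_cases hz : z ∈ tsupport (gr χ)
  · refine mul_le_mul_of_nonneg_right ?_ (sq_nonneg _)
    have := pow_le_pow_left₀ (abs_nonneg _) (hM n z hz) 2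
    rwa [sq_abs, mul_pow, Real.sq_sqrt d0] at this
  · rw [image_eq_zero_of_notMem_tsupport hz, norm_zero, zero_pow two_ne_zero, mul_zero, mul_zero]

include adm omC in
theorem far (hK : IsCompact K) (hQ : Clo K Q) (hχ : Cut K Q χ) (h : Cv K u u₀ δ) {θ : ℂ → ℝ}
    (hθ : Adm K θ) (n : ℕ) :
    |om K Q θ (u n - u₀)| ≤ √(en Kᶜ fun z => χ z * θ z) * √(δ n) :=
  (omC.far K Q χ θ _ hK hQ hχ hθ (adm.sub K _ _ hK.isClosed (h.a n) h.a0) (h.i n)).trans
    (mul_le_mul_of_nonneg_left (Real.sqrt_le_sqrt (h.e n)) (Real.sqrt_nonneg _))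

include adm hs cut omB omC in
theorem star_lim (hK : IsCompact K) (hQ : Clo K Q) (h : Cv K u u₀ δ) (hσ : Sq σ)
    (hρ : ∀ n, sm Q (ρ n - σ) (ρ n - σ) ≤ δ n) (H : ∀ᶠ n in atTop, Star K Q (u n) (ρ n)) :
    Star K Q u₀ σ := by
  refine ⟨h.a0, hσ, fun θ s g => ?_⟩
  obtain ⟨χ, hχ, -⟩ := cut K Q univ hK hQ isOpen_univ (subset_univ _)
  have t := ((h.rt.const_mul √(en Kᶜ fun z => χ z * θ z)).add
    (h.rt.mul_const √(sm Q s s))).const_add (sm Q s σ)
  simp only [mul_zero, zero_mul, add_zero] at t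
  refine ge_of_tendsto t (H.mono fun n hn => ?_)
  have k1 := hn.2.2 θ s g
  have k2 := far adm omC hK hQ hχ h g.1 n
  have k3 := hs.cs K Q _ s (hs.sqadd K _ σ hn.2.1.2 hσ.2).2 g.2.1.2
  rw [(omB.add K Q (u n) u₀ θ hK hQ (h.a n) h.a0 g.1).2.2.2] at k2
  rw [(hs.add K Q _ σ s hn.2.1.2 hσ.2 g.2.1.2).2, hs.comm K Q _ s, hs.comm K Q σ s] at k3
  have k5 := mul_le_mul_of_nonneg_right (Real.sqrt_le_sqrt (hρ n)) (Real.sqrt_nonneg (sm Q s s))
  rw [abs_le] at k1 k2 k3 ⊢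
  constructor <;> linarith [k1.1, k1.2, k2.1, k2.2, k3.1, k3.2]

include hs in
theorem sm_par {a b : Cmp K → ℝ} (ha : Summable fun p => a p ^ 2) (hb : Summable fun p => b p ^ 2) :
    sm Q (a + b) (a + b) ≤ 2 * sm Q a a + 2 * sm Q b b := by
  obtain ⟨s1, s2⟩ := hs.sqadd K a b ha hb
  have k := hs.nonneg K Q (a - b)
  rw [(hs.add K Q a b _ ha hb s2).2, hs.comm K Q a, hs.comm K Q b, (hs.add K Q a b _ ha hb ha).2,
    (hs.add K Q a b _ ha hb hb).2] at k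
  rw [(hs.add K Q a b _ ha hb s1).1, hs.comm K Q a, hs.comm K Q b, (hs.add K Q a b _ ha hb ha).1,
    (hs.add K Q a b _ ha hb hb).1]
  linarith

include adm hs cut omC in
theorem appr_lim (cmp : S_cmp) (hK : IsCompact K) (h : Cv K u u₀ δ) (h' : Su K u u₀ δ) (hσ : Sq σ)
    (hρ : ∀ n, sm K (ρ n - σ) (ρ n - σ) ≤ δ n) (H : ∀ n, Appr K K (u n) (ρ n)) :
    Appr K K u₀ σ := by
  refine ⟨h.a0, hσ, fun ε hε => ?_⟩
  have hc := hK.isClosed
  have hQ := cmp.clo_self K hc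
  obtain ⟨χ, hχ, hsup⟩ := cut K K _ hK hQ isOpen_thickening (self_subset_thickening hε K)
  have e4 : 0 < ε / 4 := by positivity
  obtain ⟨n, n1, n2⟩ := (((cut_lim adm omC hK hQ hχ h h').eventually (gt_mem_nhds e4)).and
    (h.t.eventually (gt_mem_nhds e4))).exists
  obtain ⟨φ, s, g, h1, h2, h3⟩ := (H n).2.2 _ e4
  have a := adm.sub K φ _ hc g.1 (h.a n)
  have b := adm.cut K K χ _ hK hQ hχ (adm.sub K _ _ hc (h.a n) h.a0)
  have z1 : ∀ z, z ∉ thickening ε K → (φ - u n) z = 0 := fun z hz =>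
    sub_eq_zero.2 (h1 z fun h => hz (thickening_mono (by linarith) K h))
  have z2 : ∀ z, z ∉ thickening ε K → χ z * (u n - u₀) z = 0 := fun z hz => by
    rw [image_eq_zero_of_notMem_tsupport fun h => hz (hsup h), zero_mul]
  refine ⟨u₀ + ((φ - u n) + fun z => χ z * (u n - u₀) z), s,
    ⟨adm.add K _ _ hc h.a0 (adm.add K _ _ hc a b), g.2.1, fun p hp => ?_⟩, fun z hz => ?_, ?_, ?_⟩
  · refine AStar.osc_congr (g.2.2 p hp)
      ((hχ.2.2.2.1.filter_mono (nhdsSet_mono hp)).mono fun z hz _ => ?_)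
    simp only [Pi.add_apply, Pi.sub_apply, hz]
    ring
  · simp only [Pi.add_apply, z1 z hz, z2 z hz, add_zero]
  · rw [add_sub_cancel_left]
    have k := (adm.tri Kᶜ Kᶜ _ _ hc.isOpen_compl subset_rfl hc.isOpen_compl.measurableSet a.1 b.1
      (AStar.glob adm hK a z1) (AStar.glob adm hK b z2)).1.2
    have k1 := Real.sqrt_le_sqrt h2
    have k2 := Real.sqrt_le_sqrt n1.le
    have k3 : √ε = 2 * √(ε / 4) := by
      rw [Real.sqrt_div' _ (by norm_num), show (4 : ℝ) = 2 ^ 2 by norm_num,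
        Real.sqrt_sq zero_le_two]
      ring
    exact (Real.sqrt_le_sqrt_iff hε.le).1 (by linarith)
  · have k := sm_par (Q := K) hs (hs.sqadd K s _ g.2.1.2 (H n).2.1.2).2
      (hs.sqadd K _ σ (H n).2.1.2 hσ.2).2
    rw [sub_add_sub_cancel] at k
    linarith [hρ n]

include adm cut omB omC in
theorem om_lim (hK : IsCompact K) (hQ : Clo K Q) (h : Cv K u u₀ δ) (k : Cv K v v₀ δ)
    (k' : Su K v v₀ δ) : Tendsto (fun n => om K Q (u n) (v n)) atTop (𝓝 (om K Q u₀ v₀)) := by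
  obtain ⟨χ, hχ, -⟩ := cut K Q univ hK hQ isOpen_univ (subset_univ _)
  have t := ((h.rt.const_mul √(en Kᶜ fun z => χ z * u₀ z)).add
    (h.rt.const_mul √(en Kᶜ fun z => χ z * v₀ z))).add
    ((cut_lim adm omC hK hQ hχ k k').sqrt.mul h.rt)
  simp only [mul_zero, add_zero] at t
  refine tendsto_iff_norm_sub_tendsto_zero.2 (squeeze_zero (fun _ => norm_nonneg _) (fun n => ?_) t)
  have a := adm.sub K _ _ hK.isClosed (h.a n) h.a0
  have b := adm.sub K _ _ hK.isClosed (k.a n) k.a0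
  have k1 := far adm omC hK hQ hχ k h.a0 n
  have k2 := far adm omC hK hQ hχ h k.a0 n
  have k3 := far adm omC hK hQ hχ h b n
  have e1 := (omB.add K Q _ _ _ hK hQ (k.a n) k.a0 h.a0).2.2.2
  have e2 := (omB.add K Q _ _ _ hK hQ (k.a n) k.a0 a).2.1
  have e3 := omB.anti K Q _ _ hK hQ a (k.a n)
  have e4 := (omB.add K Q _ _ _ hK hQ (h.a n) h.a0 (k.a n)).2.1
  rw [Real.norm_eq_abs]
  rw [abs_le] at k1 k2 k3 ⊢
  constructor <;> linarith [k1.1, k1.2, k2.1, k2.2, k3.1, k3.2]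

variable {c z₀ : ℂ} {f : ℕ → ℂ → ℂ} {g : ℂ → ℂ} (hol : S_hol) (hd : S_d2)

include hol hd in
theorem cv (hK : IsClosed K) (hf : ∀ n, Hol K c (f n)) (hg : Hol K c g)
    (t : Tendsto (fun n => d2 K (f n) (ρ n) g σ) atTop (𝓝 0)) :
    Cv K (fun n => ru (f n)) (ru g) (fun n => d2 K (f n) (ρ n) g σ) ∧
    Cv K (fun n => iv (f n)) (iv g) (fun n => d2 K (f n) (ρ n) g σ) := by
  have e := fun n => hd.enl K ∅ c (f n) g (ρ n) σ hK (hf n) hg .empty (empty_subset _)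
    Bornology.isBounded_empty
  have i := fun n => hol.sub K c (f n) g hK (hf n) hg
  exact ⟨⟨fun n => (hol.adm K c _ hK (hf n)).1, (hol.adm K c _ hK hg).1, fun n => (i n).2.2.1,
    fun n => (e n).2.2.1, t⟩, ⟨fun n => (hol.adm K c _ hK (hf n)).2, (hol.adm K c _ hK hg).2,
    fun n => (i n).2.2.2.1, fun n => (e n).2.2.2, t⟩⟩

include hs hd in
theorem sm_lim (hQ : Q ⊆ K) (hρ : ∀ n, Sq (ρ n)) (hσ : Sq σ)
    (t : Tendsto (fun n => d2 K (f n) (ρ n) g σ) atTop (𝓝 0)) :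
    Tendsto (fun n => sm Q (ρ n) (ρ n)) atTop (𝓝 (sm Q σ σ)) := by
  have t1 : Tendsto (fun n => √(sm Q (ρ n) (ρ n))) atTop (𝓝 √(sm Q σ σ)) := by
    refine tendsto_iff_norm_sub_tendsto_zero.2 (squeeze_zero (fun _ => norm_nonneg _) (fun n => ?_)
      (by simpa only [Real.sqrt_zero] using t.sqrt))
    have k1 := (hd.sml K Q (f n) g _ σ (hρ n) hσ hQ).1
    have k2 := (hd.sml K Q g (f n) σ _ hσ (hρ n) hQ).1
    rw [hd.symm] at k2
    exact abs_le.2 ⟨by linarith, by linarith⟩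
  simpa only [Real.sq_sqrt (hs.nonneg K Q _)] using t1.pow 2

theorem inj (decay : S_decay) (hB : Base K z₀ c) (hf : ∀ n, Hol K c (f n))
    (hi : ∀ n, InjOn (f n) Kᶜ) (hg : Hol K c g) (hl : TendstoLocallyUniformlyOn f g atTop Kᶜ) :
    InjOn g Kᶜ := by
  intro a ha b hb hab
  by_contra hne
  have ho := hB.cpt.isClosed.isOpen_compl
  have hU : IsOpen (Kᶜ \ {a}) := ho.sdiff isClosed_singleton
  have hl' : TendstoLocallyUniformlyOn (fun i z => f i z - f i a) (fun z => g z - g a) atTop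
      (Kᶜ \ {a}) := by
    have h1 : TendstoLocallyUniformlyOn (fun i (_ : ℂ) => f i a) (fun _ => g a) atTop (Kᶜ \ {a}) :=
      ((hl.tendsto_at ha).tendstoUniformlyOn_const _).tendstoLocallyUniformlyOn
    exact (hl.mono sdiff_subset).sub h1
  have h1 := P071.Riemann.hurwitz hU hl' (fun i => ((hf i).1.mono sdiff_subset).sub_const _)
    (fun i w hw h => hw.2 (hi i hw.1 ha (sub_eq_zero.mp h)))
    (b := b) ⟨hb, fun h => hne (mem_singleton_iff.mp h).symm⟩ (by simp [hab])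
  have h2 : deriv g =ᶠ[𝓝 b] 0 := by
    have := h1.deriv
    simpa only [deriv_sub_const_fun, deriv_zero] using this
  have h3 := ((hg.1.deriv ho).analyticOnNhd ho).eqOn_zero_of_preconnected_of_eventuallyEq_zero
    hB.con hb h2
  exact hB.ne (tendsto_nhds_unique (decay K c g hB.cpt hg).2
    (tendsto_const_nhds.congr' (mem_of_superset hB.cpt.compl_mem_cocompact fun z hz => (h3 hz).symm)))

end ALim

theorem s_lim (cmp : S_cmp) (adm : S_adm) (sm : S_sm) (cut : S_cut) (omA : S_omA) (omB : S_omB)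
    (omC : S_omC) (hol : S_hol) (decay : S_decay) (lu : S_lu) (d2 : S_d2) : S_lim where
  pre K z₀ c f ρ g σ hB hf hg h0 hσ t := by
    have hK := hB.cpt
    obtain ⟨c1, c2⟩ := ALim.cv hol d2 hK.isClosed (fun n => (hf n).hol) hg t
    have su : ∀ C, IsCompact C → C ⊆ Kᶜ → ∃ M, ∀ n, ∀ z ∈ C,
        ‖f n z - g z‖ ≤ M * √(P116.d2 K (f n) (ρ n) g σ) := fun C hC hCK => by
      obtain ⟨M, -, hM⟩ := d2.sup lu K C z₀ hB.toCtx hB.out hC hCK
      exact ⟨M, fun n => hM c _ g _ σ (hf n).hol hg (hf n).nrm h0⟩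
    have s1 : ALim.Su K (fun n => ru (f n)) (ru g) fun n => P116.d2 K (f n) (ρ n) g σ :=
      fun C hC hCK => (su C hC hCK).imp fun M hM n z hz =>
        (abs_re_le_norm (f n z - g z)).trans (hM n z hz)
    have s2 : ALim.Su K (fun n => iv (f n)) (iv g) fun n => P116.d2 K (f n) (ρ n) g σ :=
      fun C hC hCK => (su C hC hCK).imp fun M hM n z hz =>
        (abs_im_le_norm (f n z - g z)).trans (hM n z hz)
    have hρ := fun n => (d2.sml K K (f n) g _ σ (hf n).au.2.1 hσ subset_rfl).2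
    refine ⟨⟨hg, h0, ALim.appr_lim adm sm cut omC cmp hK c1 s1 hσ hρ fun n => (hf n).au,
      ALim.appr_lim adm sm cut omC cmp hK c2 s2 hσ hρ fun n => (hf n).av, fun Q hQ => ?_⟩,
      ALim.inj decay hB (fun n => (hf n).hol) (fun n => (hf n).inj) hg ?_⟩
    · exact tendsto_nhds_unique (ALim.om_lim adm cut omB omC hK hQ c1 c2 s2).neg
        ((ALim.sm_lim sm d2 hQ.1 (fun n => (hf n).au.2.1) hσ t).congr fun n =>
          ((hf n).area Q hQ).symm)
    · refine (tendstoLocallyUniformlyOn_iff_forall_isCompact hK.isClosed.isOpen_compl).2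
        fun C hCK hC => Metric.tendstoUniformlyOn_iff.2 fun ε hε => ?_
      obtain ⟨M, hM⟩ := su C hC hCK
      have t1 := c1.rt.const_mul M
      rw [mul_zero] at t1
      filter_upwards [t1.eventually (gt_mem_nhds hε)] with n hn z hz
      rw [dist_comm, dist_eq_norm]
      exact (hM n z hz).trans_lt hn
  star K Q c f ρ g σ hK hQ hf hg hσ t := by
    obtain ⟨c1, c2⟩ := ALim.cv hol d2 hK.isClosed (fun n => (hf n).1) hg t
    have hρ := fun n => (d2.sml K Q (f n) g _ σ (hf n).2 hσ hQ.1).2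
    exact ⟨ALim.star_lim adm sm cut omB omC hK hQ c1 hσ hρ,
      ALim.star_lim adm sm cut omB omC hK hQ c2 hσ hρ⟩

end Vale.Agent.P116
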