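import Vale.Agent.P116.ACmp
import Vale.Agent.P116.APart
import Vale.Agent.P116.AFill
import Vale.Agent.P116.AUnic
import Vale.Agent.P116.ACell
import Vale.Agent.P116.ACross
import Vale.Agent.P116.ACut
import Vale.Agent.P116.AStokes
import Vale.Agent.P116.AAdm
import Vale.Agent.P116.AComp
import Vale.Agent.P116.ASm
import Vale.Agent.P116.AOmA
import Vale.Agent.P116.AOmB
import Vale.Agent.P116.AOmC
import Vale.Agent.P116.AOmD
import Vale.Agent.P116.AStar
import Vale.Agent.P116.ACov
import Vale.Agent.P116.AHol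
import Vale.Agent.P116.ADecay
import Vale.Agent.P116.ALu
import Vale.Agent.P116.AD2
import Vale.Agent.P116.ACompl
import Vale.Agent.P116.ALim
import Vale.Agent.P116.AWg
import Vale.Agent.P116.APrim

/-! Step A: the library. -/

namespace Vale.Agent.P116

theorem a_cmp : S_cmp := s_cmp 
theorem a_part : S_part := s_part a_cmp
theorem a_fill : S_fill := s_fill a_cmp
theorem a_unic : S_unic := s_unic 
theorem a_cell : S_cell := s_cell a_cmp a_fill a_unic
theorem a_cross : S_cross := s_cross 
theorem a_cut : S_cut := s_cut 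
theorem a_stokes : S_stokes := s_stokes 
theorem a_adm : S_adm := s_adm 
theorem a_comp : S_comp := s_comp a_cmp a_adm
theorem a_sm : S_sm := s_sm a_cmp
theorem a_omA : S_omA := s_omA a_adm a_cut a_stokes
theorem a_omB : S_omB := s_omB a_cmp a_part a_adm a_cut a_stokes a_omA
theorem a_omC : S_omC := s_omC a_adm a_cut a_stokes a_omA
theorem a_omD : S_omD := s_omD a_adm a_comp a_cut a_stokes a_omA a_omB
theorem a_star : S_star := s_star a_cmp a_adm a_comp a_sm a_cut a_omA a_omB a_omC
theorem a_cov : S_cov := s_cov 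
theorem a_hol : S_hol := s_hol a_adm
theorem a_decay : S_decay := s_decay 
theorem a_lu : S_lu := s_lu 
theorem a_d2 : S_d2 := s_d2 a_adm a_sm a_hol
theorem a_compl : S_compl := s_compl a_sm a_hol a_lu a_d2
theorem a_lim : S_lim := s_lim a_cmp a_adm a_sm a_cut a_omA a_omB a_omC a_hol a_decay a_lu a_d2
theorem a_wg : S_wg := s_wg a_adm
theorem a_prim : S_prim := s_prim a_stokes

theorem lib_all : Lib :=
  ⟨a_cmp, a_part, a_fill, a_unic, a_cell, a_cross, a_cut, a_stokes, a_adm, a_comp, a_sm, a_omA, a_omB, a_omC, a_omD, a_star, a_cov, a_hol, a_decay, a_lu, a_d2, a_compl, a_lim, a_wg, a_prim⟩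

end Vale.Agent.P116
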