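import Vale.Agent.P116.ALib
import Vale.Agent.P116.AProd
import Vale.Agent.P116.AImgA
import Vale.Agent.P116.ACorr
import Vale.Agent.P116.AImgB
import Vale.Agent.P116.AMax
import Vale.Agent.P116.AArea
import Vale.Agent.P116.AVol
import Vale.Agent.P116.ARot
import Vale.Agent.P116.ADeg
import Vale.Agent.P116.APos
import Vale.Agent.P116.AInj
import Vale.Agent.P116.AUv
import Vale.Agent.P116.ABx
import Vale.Agent.P116.AVan
import Vale.Agent.P116.ABox
import Vale.Agent.P116.ADir
import Vale.Agent.P116.AFrame
import Vale.Agent.P116.ATail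
import Vale.Agent.P116.AAtom
import Vale.Agent.P116.ALs
import Vale.Agent.P116.AAl
import Vale.Agent.P116.AStep
import Vale.Agent.P116.ABl
import Vale.Agent.P116.AGap
import Vale.Agent.P116.APlat
import Vale.Agent.P116.AEst
import Vale.Agent.P116.AHp
import Vale.Agent.P116.AMono
import Vale.Agent.P116.ATrans
import Vale.Agent.P116.ASw
import Vale.Agent.P116.ACert
import Vale.Agent.P116.AFin
import Vale.Agent.P116.AS1
import Vale.Agent.P116.ACore
import Vale.Agent.P116.AUstep
import Vale.Agent.P116.ABaire

/-! Step A: assembly from existence and isotropy. -/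

namespace Vale.Agent.P116

theorem a_prod : S_prod := s_prod lib_all
theorem a_imgA : S_imgA := s_imgA lib_all
theorem a_corr : S_corr := s_corr lib_all a_imgA
theorem a_imgB : S_imgB := s_imgB lib_all a_imgA a_corr
theorem a_max : S_max := s_max lib_all a_imgA a_corr a_imgB
theorem a_area : S_area := s_area lib_all a_imgA a_corr a_imgB
theorem a_vol : S_vol := s_vol lib_all a_imgA a_imgB a_area
theorem a_rot : S_rot := s_rot lib_all
theorem geo_all : Geo := ⟨a_prod, a_imgA, a_corr, a_imgB, a_max, a_area, a_vol, a_rot⟩
theorem a_deg : S_deg := s_deg lib_all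
theorem a_pos : S_pos := s_pos lib_all a_prod
theorem a_inj : S_inj := s_inj lib_all
theorem a_uv : S_uv := s_uv lib_all a_deg a_pos a_inj
theorem a_sol (hex : S_ex) (hiso : S_iso) : S_sol := s_sol lib_all hex hiso a_uv
theorem a_bx : S_bx := s_bx lib_all geo_all
theorem a_van : S_van := s_van lib_all geo_all
theorem a_box : S_box := s_box lib_all geo_all a_van
theorem a_dir : S_dir := s_dir lib_all a_imgA
theorem a_frame : S_frame := s_frame 
theorem a_tail : S_tail := s_tail lib_all geo_all
theorem a_atom : S_atom := s_atom lib_all geo_all a_bx a_van a_box a_dir a_frame a_tail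
theorem a_ls : S_ls := s_ls lib_all geo_all a_atom a_tail
theorem a_al : S_al := s_al lib_all geo_all a_ls
theorem a_step : S_step := s_step lib_all
theorem a_bl : S_bl := s_bl lib_all geo_all a_ls a_step
theorem a_gap : S_gap := s_gap lib_all geo_all a_bl
theorem a_plat : S_plat := s_plat 
theorem a_est : S_est := s_est lib_all
theorem a_hp : S_hp := s_hp lib_all geo_all a_gap a_plat a_est
theorem a_mono : S_mono := s_mono lib_all
theorem a_trans : S_trans := s_trans lib_all
theorem a_sw : S_sw := s_sw lib_all geo_all a_mono a_ls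
theorem a_cert : S_cert := s_cert lib_all geo_all
theorem a_fin : S_fin := s_fin lib_all geo_all
theorem a_s1 (h : S_sol) : S_s1 := s_s1 lib_all geo_all h a_mono a_al
theorem a_core (h : S_sol) : S_core := s_core lib_all geo_all h a_sw a_plat a_trans a_est a_gap
theorem a_ustep (h : S_sol) : S_ustep := s_ustep lib_all geo_all (a_s1 h) a_hp (a_core h) a_cert
theorem a_baire (h : S_sol) : S_baire := s_baire lib_all geo_all h (a_ustep h) a_cert

theorem square_of (hex : S_ex) (hiso : S_iso) : SquareThm :=
  squareThm lib_all (a_baire (a_sol hex hiso)) a_fin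

end Vale.Agent.P116
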