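import Vale.Agent.P116.KoSt

/-! Basic facts on squares, cutoffs and the derivatives `dz`, `db`. -/

open Set Filter Topology MeasureTheory Metric Complex
open scoped ENNReal ComplexConjugate Real

noncomputable section
namespace Vale.Agent.P116

theorem mem_sq_iff {a b s : ℝ} {z : ℂ} : z ∈ sq a b s ↔
    |(z - cen a b s).re| ≤ s / 2 ∧ |(z - cen a b s).im| ≤ s / 2 := by
  simp only [sq, cen, mem_ofPred_eq, sub_re, sub_im, abs_le]
  constructor
  · rintro ⟨h1, h2, h3, h4⟩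
    refine ⟨⟨?_, ?_⟩, ?_, ?_⟩ <;> linarith
  · rintro ⟨⟨h1, h2⟩, h3, h4⟩
    refine ⟨?_, ?_, ?_, ?_⟩ <;> linarith

theorem sq_eq (a b s : ℝ) : sq a b s = Icc a (a + s) ×ℂ Icc b (b + s) := by
  ext z
  simp only [sq, mem_ofPred_eq, mem_reProdIm, mem_Icc]
  tauto

theorem isCompact_sq (a b s : ℝ) : IsCompact (sq a b s) := by
  rw [sq_eq]; exact isCompact_Icc.reProdIm isCompact_Icc

theorem isClosed_sq (a b s : ℝ) : IsClosed (sq a b s) := (isCompact_sq a b s).isClosed

theorem measurableSet_sq (a b s : ℝ) : MeasurableSet (sq a b s) :=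
  (isClosed_sq a b s).measurableSet

theorem convex_sq (a b s : ℝ) : Convex ℝ (sq a b s) := by
  intro x hx y hy p q hp hq hpq
  obtain ⟨h1, h2, h3, h4⟩ := hx
  obtain ⟨k1, k2, k3, k4⟩ := hy
  have e : ∀ t : ℝ, t = p * t + q * t := fun t => by rw [← add_mul, hpq, one_mul]
  refine ⟨?_, ?_, ?_, ?_⟩ <;>
    simp only [add_re, add_im, smul_re, smul_im, smul_eq_mul]
  · rw [e a]; gcongr
  · rw [e (a + s)]; gcongr
  · rw [e b]; gcongr
  · rw [e (b + s)]; gcongr

theorem closedBall_subset_sq (a b s : ℝ) : closedBall (cen a b s) (s / 2) ⊆ sq a b s := by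
  intro z hz
  rw [mem_closedBall, dist_eq_norm] at hz
  exact mem_sq_iff.2 ⟨(abs_re_le_norm _).trans hz, (abs_im_le_norm _).trans hz⟩

theorem cen_mem {a b s : ℝ} (hs : 0 ≤ s) : cen a b s ∈ sq a b s :=
  closedBall_subset_sq a b s (mem_closedBall_self (by linarith))

theorem sq_subset_closedBall (a b s : ℝ) : sq a b s ⊆ closedBall (cen a b s) s := by
  intro z hz
  rw [mem_closedBall, dist_eq_norm]
  have := mem_sq_iff.1 hz
  linarith [norm_le_abs_re_add_abs_im (z - cen a b s), this.1, this.2]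

theorem norm_sub_le_sq {a b s : ℝ} {x y : ℂ} (hx : x ∈ sq a b s) (hy : y ∈ sq a b s) :
    ‖x - y‖ ≤ 2 * s := by
  have h1 := sq_subset_closedBall a b s hx
  have h2 := sq_subset_closedBall a b s hy
  rw [mem_closedBall] at h1 h2
  rw [← dist_eq_norm]
  linarith [dist_triangle_right x y (cen a b s)]

theorem volume_sq (a b s : ℝ) : volume (sq a b s) = ENNReal.ofReal s ^ 2 := by
  have h := Complex.volume_preserving_equiv_real_prod.measure_preimage
    (s := Icc a (a + s) ×ˢ Icc b (b + s))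
    (measurableSet_Icc.prod measurableSet_Icc).nullMeasurableSet
  have e : sq a b s = Complex.measurableEquivRealProd ⁻¹' (Icc a (a + s) ×ˢ Icc b (b + s)) := by
    ext z
    simp only [sq, mem_ofPred_eq, mem_preimage, mem_prod, mem_Icc, measurableEquivRealProd_apply]
    tauto
  rw [e, h, Measure.volume_eq_prod, Measure.prod_prod, Real.volume_Icc, Real.volume_Icc]
  simp [pow_two]

section
variable {ι : Type} {a b s : ι → ℝ} {R : ℝ}

theorem sq_subset_KK (j : ι) : sq (a j) (b j) (s j) ⊆ KK a b s :=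
  subset_iUnion (fun j => sq (a j) (b j) (s j)) j

theorem mem_KK {z : ℂ} : z ∈ KK a b s ↔ ∃ j, z ∈ sq (a j) (b j) (s j) := mem_iUnion

theorem isCompact_KK [Finite ι] (a b s : ι → ℝ) : IsCompact (KK a b s) :=
  isCompact_iUnion fun j => isCompact_sq (a j) (b j) (s j)

theorem isOpen_G [Finite ι] (a b s : ι → ℝ) : IsOpen (KK a b s)ᶜ :=
  (isCompact_KK a b s).isClosed.isOpen_compl

theorem Cfg.sub (h : Cfg a b s R) : KK a b s ⊆ ball 0 R := iUnion_subset h.bdd

theorem Cfg.eq_of_mem (h : Cfg a b s R) {i j : ι} {z : ℂ} (hi : z ∈ sq (a i) (b i) (s i))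
    (hj : z ∈ sq (a j) (b j) (s j)) : i = j := by
  by_contra hne
  exact Set.disjoint_left.1 (h.dis hne) hi hj

/-- near the square `j` there is no other square -/
theorem Cfg.near [Finite ι] (h : Cfg a b s R) (j : ι) :
    ∀ᶠ z in 𝓝ˢ (sq (a j) (b j) (s j)), ∀ k, k ≠ j → z ∉ sq (a k) (b k) (s k) := by
  refine eventually_all.2 fun k => ?_
  by_cases hk : k = j
  · exact Eventually.of_forall fun z h' => (h' hk).elim
  · have : (sq (a k) (b k) (s k))ᶜ ∈ 𝓝ˢ (sq (a j) (b j) (s j)) :=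
      (isClosed_sq _ _ _).isOpen_compl.mem_nhdsSet.2 (h.dis hk).subset_compl_left
    filter_upwards [this] with z hz _ using hz

theorem Cfg.front [Finite ι] (h : Cfg a b s R) (j : ι) :
    (sq (a j) (b j) (s j) ∩ closure (KK a b s)ᶜ).Nonempty := by
  have hm : (⟨a j, b j⟩ : ℂ) ∈ sq (a j) (b j) (s j) := by
    have := (h.pos j).le
    refine ⟨le_rfl, ?_, le_rfl, ?_⟩ <;> simp [this]
  refine ⟨_, hm, ?_⟩
  have hc : Continuous fun t : ℝ => (⟨a j, b j⟩ : ℂ) - (t : ℂ) := by fun_prop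
  have ht : Tendsto (fun t : ℝ => (⟨a j, b j⟩ : ℂ) - (t : ℂ)) (𝓝[>] 0) (𝓝 ⟨a j, b j⟩) := by
    have := (hc.tendsto 0).mono_left (nhdsWithin_le_nhds (s := Ioi 0))
    simpa using this
  refine mem_closure_of_tendsto ht ?_
  have h1 := ht.eventually ((h.near j).filter_mono (nhds_le_nhdsSet hm))
  filter_upwards [h1, self_mem_nhdsWithin] with t h1 h2 hK
  obtain ⟨k, hk⟩ := mem_KK.1 hK
  by_cases hkj : k = j
  · subst hkj
    have := hk.1
    simp only [sub_re, ofReal_re] at this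
    have h3 : (0 : ℝ) < t := h2
    linarith
  · exact h1 k hkj hk

end

theorem bump_ex {S U : Set ℂ} (hS : IsCompact S) (hU : U ∈ 𝓝ˢ S) :
    ∃ χ : ℂ → ℝ, ContDiff ℝ (⊤ : ℕ∞) χ ∧ HasCompactSupport χ ∧ (∀ᶠ z in 𝓝ˢ S, χ z = 1) ∧
      tsupport χ ⊆ U ∧ ∀ z, χ z ∈ Icc (0 : ℝ) 1 := by
  obtain ⟨V, hVU, hVo, hSV⟩ := mem_nhdsSet.1 hU
  obtain ⟨L, hL, hSL, hLV⟩ := exists_compact_between hS hVo hSV
  obtain ⟨f, h0, h1, h2⟩ := exists_contMDiffMap_zero_one_nhds_of_isClosed (modelWithCornersSelf ℝ ℂ)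
    (n := (⊤ : ℕ∞)) (s := (interior L)ᶜ) (t := S) isOpen_interior.isClosed_compl hS.isClosed
    (disjoint_compl_left_iff_subset.2 hSL)
  have hs : tsupport f ⊆ L := by
    refine closure_minimal (fun z hz => ?_) hL.isClosed
    by_contra hn
    exact hz (h0.self_of_nhdsSet z fun h => hn (interior_subset h))
  exact ⟨f, f.contMDiff.contDiff, hL.of_isClosed_subset (isClosed_tsupport _) hs, h1,
    hs.trans (hLV.trans hVU), h2⟩

theorem Cfg.loc_ex {ι : Type} [Finite ι] {a b s : ι → ℝ} {R : ℝ} (h : Cfg a b s R) (j : ι)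
    {U : Set ℂ} (hU : U ∈ 𝓝ˢ (sq (a j) (b j) (s j))) :
    ∃ χ, Loc a b s j χ ∧ tsupport χ ⊆ U ∧ ∀ z, χ z ∈ Icc (0 : ℝ) 1 := by
  obtain ⟨χ, h1, h2, h3, h4, h5⟩ := bump_ex (isCompact_sq _ _ _) (inter_mem hU (h.near j))
  exact ⟨χ, ⟨h1, h2, h3, fun k hk => Set.disjoint_left.2 fun z hz => (h4 hz).2 k hk⟩,
    fun z hz => (h4 hz).1, h5⟩

theorem cut_ex (R : ℝ) : ∃ χ, KCut R χ := by
  obtain ⟨χ, h1, h2, h3, -, -⟩ := bump_ex (isCompact_closedBall (0 : ℂ) R) univ_mem
  exact ⟨χ, h1, h2, fun z hz => h3.self_of_nhdsSet z (ball_subset_closedBall hz)⟩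

theorem fderiv_eq_dz_db (H : ℂ → ℂ) (z v : ℂ) :
    fderiv ℝ H z v = dz H z * v + db H z * conj v := by
  have e : v = v.re • (1 : ℂ) + v.im • I := by
    apply Complex.ext <;> simp
  have e2 : fderiv ℝ H z v = v.re * fderiv ℝ H z 1 + v.im * fderiv ℝ H z I := by
    conv_lhs => rw [e]
    rw [map_add, map_smul, map_smul]
    simp
  have h1 : v = v.re + v.im * I := (re_add_im v).symm
  have h2 : conj v = v.re - v.im * I := by apply Complex.ext <;> simp
  rw [e2, dz, db, h2]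
  conv_rhs => rw [h1]
  simp only [add_re, ofReal_re, mul_re, I_re, mul_zero, ofReal_im, I_im, mul_one, sub_self,
    add_zero, add_im, mul_im, zero_add]
  linear_combination (fderiv ℝ H z I * v.im) * I_mul_I

theorem fderiv_of_hasDerivAt {f : ℂ → ℂ} {f' z : ℂ} (h : HasDerivAt f f' z) (v : ℂ) :
    fderiv ℝ f z v = f' * v := by
  rw [(h.hasFDerivAt.restrictScalars ℝ).fderiv]
  simp [mul_comm]

theorem dz_of_hasDerivAt {f : ℂ → ℂ} {f' z : ℂ} (h : HasDerivAt f f' z) : dz f z = f' := by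
  rw [dz, fderiv_of_hasDerivAt h, fderiv_of_hasDerivAt h]
  linear_combination (-f' / 2) * I_mul_I

theorem db_of_hasDerivAt {f : ℂ → ℂ} {f' z : ℂ} (h : HasDerivAt f f' z) : db f z = 0 := by
  rw [db, fderiv_of_hasDerivAt h, fderiv_of_hasDerivAt h]
  linear_combination (f' / 2) * I_mul_I

theorem hasDerivAt_of_db {f : ℂ → ℂ} {z : ℂ} (h : DifferentiableAt ℝ f z) (h0 : db f z = 0) :
    HasDerivAt f (dz f z) z := by
  have h1 := h.hasFDerivAt
  have e : fderiv ℝ f z =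
      (ContinuousLinearMap.toSpanSingleton ℂ (dz f z)).restrictScalars ℝ := by
    ext v; simp [fderiv_eq_dz_db, h0, mul_comm]
  exact hasDerivAt_iff_hasFDerivAt.2 (hasFDerivAt_of_restrictScalars ℝ h1 e.symm)

theorem fderiv_conj (H : ℂ → ℂ) (z v : ℂ) :
    fderiv ℝ (fun w => conj (H w)) z v = conj (fderiv ℝ H z v) := by
  have := conjCLE.comp_fderiv (f := H) (x := z)
  have e : (fun w => conj (H w)) = conjCLE ∘ H := rfl
  rw [e, this]
  rfl

theorem conj_dz (H : ℂ → ℂ) (z : ℂ) : conj (dz H z) = db (fun w => conj (H w)) z := by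
  simp [dz, db, fderiv_conj, map_ofNat]

theorem conj_db (H : ℂ → ℂ) (z : ℂ) : conj (db H z) = dz (fun w => conj (H w)) z := by
  simp [dz, db, fderiv_conj, map_ofNat, sub_eq_add_neg]

theorem conj_dz_real (χ : ℂ → ℝ) (z : ℂ) :
    conj (dz (fun w => (χ w : ℂ)) z) = db (fun w => (χ w : ℂ)) z := by
  simp [conj_dz]

theorem dz_congr {u v : ℂ → ℂ} {z : ℂ} (h : u =ᶠ[𝓝 z] v) : dz u z = dz v z := by
  rw [dz, dz, h.fderiv_eq]

theorem db_congr {u v : ℂ → ℂ} {z : ℂ} (h : u =ᶠ[𝓝 z] v) : db u z = db v z := by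
  rw [db, db, h.fderiv_eq]

theorem dz_add {u v : ℂ → ℂ} {z : ℂ} (hu : DifferentiableAt ℝ u z) (hv : DifferentiableAt ℝ v z) :
    dz (fun w => u w + v w) z = dz u z + dz v z := by
  simp only [dz, fderiv_fun_add hu hv, add_apply]; ring

theorem db_add {u v : ℂ → ℂ} {z : ℂ} (hu : DifferentiableAt ℝ u z) (hv : DifferentiableAt ℝ v z) :
    db (fun w => u w + v w) z = db u z + db v z := by
  simp only [db, fderiv_fun_add hu hv, add_apply]; ring

theorem dz_sub {u v : ℂ → ℂ} {z : ℂ} (hu : DifferentiableAt ℝ u z) (hv : DifferentiableAt ℝ v z) :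
    dz (fun w => u w - v w) z = dz u z - dz v z := by
  simp only [dz, fderiv_fun_sub hu hv, sub_apply]; ring

theorem db_sub {u v : ℂ → ℂ} {z : ℂ} (hu : DifferentiableAt ℝ u z) (hv : DifferentiableAt ℝ v z) :
    db (fun w => u w - v w) z = db u z - db v z := by
  simp only [db, fderiv_fun_sub hu hv, sub_apply]; ring

theorem fderiv_mul_apply {u v : ℂ → ℂ} {z : ℂ} (hu : DifferentiableAt ℝ u z)
    (hv : DifferentiableAt ℝ v z) (e : ℂ) : fderiv ℝ (fun w => u w * v w) z e =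
      u z * fderiv ℝ v z e + v z * fderiv ℝ u z e := by
  simp [fderiv_fun_mul hu hv]

theorem dz_mul {u v : ℂ → ℂ} {z : ℂ} (hu : DifferentiableAt ℝ u z) (hv : DifferentiableAt ℝ v z) :
    dz (fun w => u w * v w) z = u z * dz v z + v z * dz u z := by
  simp only [dz, fderiv_mul_apply hu hv]; ring

theorem db_mul {u v : ℂ → ℂ} {z : ℂ} (hu : DifferentiableAt ℝ u z) (hv : DifferentiableAt ℝ v z) :
    db (fun w => u w * v w) z = u z * db v z + v z * db u z := by
  simp only [db, fderiv_mul_apply hu hv]; ring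

theorem dz_comp {η f : ℂ → ℂ} {f' z : ℂ} (hη : DifferentiableAt ℝ η (f z))
    (hf : HasDerivAt f f' z) : dz (fun w => η (f w)) z = dz η (f z) * f' := by
  have h1 := hη.hasFDerivAt.comp z (hf.hasFDerivAt.restrictScalars ℝ)
  have e : ∀ v, fderiv ℝ (fun w => η (f w)) z v = fderiv ℝ η (f z) (f' * v) := fun v => by
    have := h1.fderiv
    rw [show (fun w => η (f w)) = η ∘ f from rfl, this]
    simp [mul_comm]
  rw [dz, e, e, fderiv_eq_dz_db, fderiv_eq_dz_db]
  simp only [map_mul, conj_I, map_one]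
  linear_combination (-(dz η (f z) * f') / 2 + db η (f z) * conj f' / 2) * I_mul_I

theorem br_eq (u v : ℂ → ℂ) (z : ℂ) : dz u z * db v z - db u z * dz v z = I / 2 * br u v z := by
  simp only [dz, db, br]; ring

theorem continuous_dz {H : ℂ → ℂ} (h : ContDiff ℝ 1 H) : Continuous (dz H) := by
  have := h.continuous_fderiv one_ne_zero
  unfold dz; fun_prop

theorem continuous_db {H : ℂ → ℂ} (h : ContDiff ℝ 1 H) : Continuous (db H) := by
  have := h.continuous_fderiv one_ne_zero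
  unfold db; fun_prop

theorem dz_eq_zero {H : ℂ → ℂ} {z : ℂ} (h : fderiv ℝ H z = 0) : dz H z = 0 := by simp [dz, h]

theorem db_eq_zero {H : ℂ → ℂ} {z : ℂ} (h : fderiv ℝ H z = 0) : db H z = 0 := by simp [db, h]

theorem hasCompactSupport_dz {H : ℂ → ℂ} (h : HasCompactSupport H) : HasCompactSupport (dz H) :=
  (h.fderiv ℝ).mono' fun _ hz => subset_closure fun h0 => hz (dz_eq_zero h0)

theorem hasCompactSupport_db {H : ℂ → ℂ} (h : HasCompactSupport H) : HasCompactSupport (db H) :=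
  (h.fderiv ℝ).mono' fun _ hz => subset_closure fun h0 => hz (db_eq_zero h0)

theorem contDiff_ofReal {n : WithTop ℕ∞} {χ : ℂ → ℝ} (h : ContDiff ℝ n χ) :
    ContDiff ℝ n fun w => (χ w : ℂ) := ofRealCLM.contDiff.comp h

theorem KCut.contDiff {R : ℝ} {χ : ℂ → ℝ} (h : KCut R χ) :
    ContDiff ℝ (⊤ : ℕ∞) fun w => w * (χ w : ℂ) := contDiff_id.mul (contDiff_ofReal h.1)

theorem KCut.supp {R : ℝ} {χ : ℂ → ℝ} (h : KCut R χ) :
    HasCompactSupport fun w => w * (χ w : ℂ) :=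
  h.2.1.mono fun z hz h0 => hz (by simp [h0])

theorem KCut.continuous_ph {R : ℝ} {χ : ℂ → ℝ} (h : KCut R χ) : Continuous (ph χ) :=
  continuous_dz (h.contDiff.of_le (by exact_mod_cast le_top))

theorem KCut.supp_ph {R : ℝ} {χ : ℂ → ℝ} (h : KCut R χ) : HasCompactSupport (ph χ) :=
  hasCompactSupport_dz h.supp

theorem KCut.ph_eq_one {R : ℝ} {χ : ℂ → ℝ} (h : KCut R χ) {z : ℂ} (hz : z ∈ ball (0 : ℂ) R) :
    ph χ z = 1 := by
  have : (fun w => w * (χ w : ℂ)) =ᶠ[𝓝 z] fun w => w := by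
    filter_upwards [isOpen_ball.mem_nhds hz] with w hw
    simp [h.2.2 w hw]
  rw [ph, dz_congr this, dz_of_hasDerivAt (hasDerivAt_id' z)]

theorem KCut.ph_eq {R : ℝ} {χ : ℂ → ℝ} (h : KCut R χ) (z : ℂ) :
    ph χ z = χ z + z * dz (fun w => (χ w : ℂ)) z := by
  rw [ph, dz_mul differentiableAt_fun_id
    ((contDiff_ofReal h.1).differentiable (by simp) z), dz_of_hasDerivAt (hasDerivAt_id' z)]
  ring

/-- a continuous function without zeros on the plane has a continuous logarithm -/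
theorem log_ex {g : ℂ → ℂ} (hg : Continuous g) (h0 : ∀ z, g z ≠ 0) :
    ∃ L : ℂ → ℂ, Continuous L ∧ ∀ z, exp (L z) = g z := by
  have hs : IsSimplyConnected (univ : Set ℂ) := by
    have := (convex_univ (𝕜 := ℝ) (E := ℂ)).contractibleSpace univ_nonempty
    exact SimplyConnectedSpace.ofContractible _
  obtain ⟨L, h1, h2⟩ := Complex.exists_continuousOn_eqOn_exp_comp hs isOpen_univ hg.continuousOn
    (by rintro ⟨z, -, hz⟩; exact h0 z hz)
  exact ⟨L, continuousOn_univ.1 h1, fun z => h2 (mem_univ z)⟩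

theorem memLp_of_sq {A : Set ℂ} {g : ℂ → ℂ} (hm : AEStronglyMeasurable g (volume.restrict A))
    (h : IntegrableOn (fun z => ‖g z‖ ^ 2) A) : MemLp g 2 (volume.restrict A) :=
  (memLp_two_iff_integrable_sq_norm hm).2 h

/-- the product of two square integrable functions is integrable -/
theorem integrableOn_mul_of_sq {A : Set ℂ} {g k : ℂ → ℂ}
    (hm : AEStronglyMeasurable g (volume.restrict A))
    (hk : AEStronglyMeasurable k (volume.restrict A))
    (h : IntegrableOn (fun z => ‖g z‖ ^ 2) A) (h' : IntegrableOn (fun z => ‖k z‖ ^ 2) A) :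
    IntegrableOn (fun z => g z * k z) A :=
  (memLp_of_sq hm h).integrable_mul (memLp_of_sq hk h')

/-- Cauchy-Schwarz on a set of finite area -/
theorem cs_set {A : Set ℂ} {g : ℂ → ℂ} (hA : volume A ≠ ⊤)
    (hm : AEStronglyMeasurable g (volume.restrict A))
    (h : IntegrableOn (fun z => ‖g z‖ ^ 2) A) :
    IntegrableOn g A ∧ ∫ z in A, ‖g z‖ ≤ √(volume.real A) * √(∫ z in A, ‖g z‖ ^ 2) := by
  haveI : IsFiniteMeasure (volume.restrict A) := isFiniteMeasure_restrict.2 hA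
  have h2 := memLp_of_sq hm h
  refine ⟨h2.integrable one_le_two, ?_⟩
  have h3 := integral_mul_le_Lp_mul_Lq_of_nonneg (μ := volume.restrict A)
    Real.HolderConjugate.two_two (f := fun _ => (1 : ℝ)) (g := fun z => ‖g z‖)
    (Eventually.of_forall fun _ => zero_le_one) (Eventually.of_forall fun _ => norm_nonneg _)
    (memLp_const _) (by simpa using h2.norm)
  simpa [Real.sqrt_eq_rpow] using h3

end Vale.Agent.P116
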