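import Mathlib

/-! Common definitions for the circle domain problem in the plane. -/

open Set Filter Topology MeasureTheory Metric Complex

noncomputable section
namespace Vale.Agent.P116

/-- The closed axis parallel square with lower left corner `(a, b)` and side `r`. -/
def sq (a b r : ℝ) : Set ℂ := {z | a ≤ z.re ∧ z.re ≤ a + r ∧ b ≤ z.im ∧ z.im ≤ b + r}

/-- Step A: every planar domain with compact complement is conformally a square domain. -/
def SquareThm : Prop :=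
  ∀ K : Set ℂ, IsCompact K → IsPreconnected Kᶜ → ∃ (f : ℂ → ℂ) (c : ℂ),
    DifferentiableOn ℂ f Kᶜ ∧ InjOn f Kᶜ ∧ Tendsto (fun z => f z - z) (cocompact ℂ) (𝓝 c) ∧
    ∀ w ∈ (f '' Kᶜ)ᶜ, ∃ a b r : ℝ, 0 ≤ r ∧ connectedComponentIn (f '' Kᶜ)ᶜ w = sq a b r

/-- The conclusion: `f` maps the complement of `K` conformally onto a circle domain. -/
def DiscMap (K : Set ℂ) (f : ℂ → ℂ) : Prop :=
  DifferentiableOn ℂ f Kᶜ ∧ InjOn f Kᶜ ∧ (∃ c, Tendsto (fun z => f z - z) (cocompact ℂ) (𝓝 c)) ∧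
    ∀ w ∈ (f '' Kᶜ)ᶜ, ∃ (a : ℂ) (r : ℝ), 0 ≤ r ∧
      connectedComponentIn (f '' Kᶜ)ᶜ w = closedBall a r

/-- Step B: every square domain is conformally a circle domain. -/
def SqToDisc : Prop :=
  ∀ K : Set ℂ, IsCompact K → IsPreconnected Kᶜ →
    (∀ w ∈ K, ∃ a b r : ℝ, 0 ≤ r ∧ connectedComponentIn K w = sq a b r) → ∃ f, DiscMap K f

/-- The planar form of the theorem. -/
def Planar : Prop := ∀ K : Set ℂ, IsCompact K → IsPreconnected Kᶜ → ∃ f, DiscMap K f

/-- The derivative in `z` of a real differentiable function. -/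
def dz (u : ℂ → ℂ) (z : ℂ) : ℂ := (fderiv ℝ u z 1 - I * fderiv ℝ u z I) / 2

/-- The derivative in `conj z` of a real differentiable function. -/
def db (u : ℂ → ℂ) (z : ℂ) : ℂ := (fderiv ℝ u z 1 + I * fderiv ℝ u z I) / 2

/-- The bracket `u_x v_y - u_y v_x`. -/
def br (u v : ℂ → ℂ) (z : ℂ) : ℂ :=
  fderiv ℝ u z 1 * fderiv ℝ v z I - fderiv ℝ u z I * fderiv ℝ v z 1

end Vale.Agent.P116
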