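import Vale.Agent.P116.KoBase

open Set Filter Topology MeasureTheory Metric Complex
open scoped ENNReal ComplexConjugate Real

noncomputable section
namespace Vale.Agent.P116

namespace KoLim

/-- A Hurwitz type statement. -/
theorem key {J : Type} {l : Filter J} {U V : Set ℂ} {f : J → ℂ → ℂ} {g : ℂ → ℂ} {z : ℂ}
    (hU : IsOpen U) (hl : TendstoLocallyUniformlyOn f g l U)
    (hf : ∀ i, DifferentiableOn ℂ (f i) U) (hi : ∀ i, InjOn (f i) U) (hg : ContinuousOn g U)
    (hz : z ∈ U) (hn : ∀ᶠ w in 𝓝[≠] z, g w ≠ g z) (hV : V ∈ 𝓝 z) :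
    ∃ η > 0, ∀ᶠ i in l, ball (g z) η ⊆ f i '' (V ∩ U) := by
  have h1 : ∀ᶠ w in 𝓝 z, (w ∈ V ∧ w ∈ U) ∧ (w ∈ ({z}ᶜ : Set ℂ) → g w ≠ g z) :=
    (Filter.Eventually.and hV (hU.mem_nhds hz)).and (eventually_nhdsWithin_iff.1 hn)
  obtain ⟨t, ht, h2⟩ := nhds_basis_closedBall.mem_iff.1 h1
  have hsub : closedBall z t ⊆ U := fun w hw => (h2 hw).1.2
  obtain ⟨m, hm, h3⟩ := (isCompact_sphere z t).exists_forall_le' (f := fun w => ‖g w - g z‖)
    (a := 0) (((hg.mono (sphere_subset_closedBall.trans hsub)).sub continuousOn_const).norm)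
    (fun w hw => norm_pos_iff.2 (sub_ne_zero.2 ((h2 (sphere_subset_closedBall hw)).2 fun e => by
      rw [mem_singleton_iff.1 e, mem_sphere, dist_self] at hw
      exact ht.ne hw)))
  have h4 := Metric.tendstoUniformlyOn_iff.1
    ((tendstoLocallyUniformlyOn_iff_forall_isCompact hU).1 hl _ hsub (isCompact_closedBall z t))
    (m / 8) (by positivity)
  refine ⟨m / 4, by positivity, ?_⟩
  filter_upwards [h4] with i h5
  have h6 := h5 z (mem_closedBall_self ht.le)
  have h7 : DiffContOnCl ℂ (f i) (ball z t) := by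
    refine DifferentiableOn.diffContOnCl ?_
    rw [closure_ball z ht.ne']
    exact (hf i).mono hsub
  have h8 : ball (f i z) (3 * m / 4 / 2) ⊆ f i '' closedBall z t := by
    refine h7.ball_subset_image_closedBall ht (fun w hw => ?_) ?_
    · have a1 := h3 w hw
      have a2 := h5 w (sphere_subset_closedBall hw)
      rw [← dist_eq_norm] at a1 ⊢
      have a3 := dist_triangle4 (g w) (f i w) (f i z) (g z)
      rw [dist_comm (f i z)] at a3
      linarith
    · have a1 : ∀ᶠ w in 𝓝[≠] z, f i w ≠ f i z := by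
        filter_upwards [nhdsWithin_le_nhds (hU.mem_nhds hz), self_mem_nhdsWithin] with w h9 h10 e
        exact h10 (hi i h9 hz e)
      exact a1.frequently.filter_mono nhdsWithin_le_nhds
  intro y hy
  have a1 : y ∈ ball (f i z) (3 * m / 4 / 2) := by
    rw [mem_ball] at hy ⊢
    linarith [dist_triangle y (g z) (f i z)]
  exact image_mono (fun w hw => (h2 hw).1) (h8 a1)

end KoLim

theorem lim_pf : S_Lim := by
  intro J 𝒰 K f R M hK hc hR hKR hf hi hM hM'
  have ho : IsOpen Kᶜ := hK.isClosed.isOpen_compl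
  have hout : ∀ z : ℂ, R ≤ ‖z‖ → z ∉ K := fun z hz h => by
    have := hKR h
    rw [mem_ball_zero_iff] at this
    linarith
  have hex : ∀ z, ∃ w, z ∉ K → Tendsto (fun i => f i z) 𝒰 (𝓝 w) := by
    intro z
    by_cases hz : z ∈ K
    · exact ⟨0, fun h => absurd hz h⟩
    · obtain ⟨w, -, hw⟩ := (isCompact_closedBall z M).ultrafilter_le_nhds (𝒰.map fun i => f i z)
        (by
          rw [Ultrafilter.coe_map, le_principal_iff, mem_map]
          exact Eventually.of_forall fun i => mem_closedBall_iff_norm.2 (hM i z hz))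
      exact ⟨w, fun _ => hw⟩
  choose g hg using hex
  have hl : TendstoLocallyUniformlyOn f g 𝒰 Kᶜ := by
    refine Metric.tendstoLocallyUniformlyOn_iff.2 fun ε hε x hx => ?_
    obtain ⟨d, hd, hb⟩ := Metric.isOpen_iff.1 ho x hx
    have h1 : ∀ i, ∀ y ∈ ball x d, dist (f i y) (f i x) ≤ (2 * M + d) / d * dist y x := by
      intro i y hy
      refine dist_le_div_mul_dist_of_mapsTo_ball ((hf i).mono hb) (fun w hw => ?_) hy
      have a1 := hM i w (hb hw)
      have a2 := hM i x hx
      have a3 := dist_triangle4 (f i w) w x (f i x)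
      rw [← dist_eq_norm] at a1 a2
      rw [mem_ball] at hw
      rw [dist_comm x] at a3
      rw [mem_closedBall]
      linarith
    have h2 : ∀ y ∈ ball x d, dist (g y) (g x) ≤ (2 * M + d) / d * dist y x := fun y hy =>
      le_of_tendsto ((hg y (hb hy)).dist (hg x hx)) (Eventually.of_forall fun i => h1 i y hy)
    have h3 : ∀ᶠ y in 𝓝 x, (2 * M + d) / d * dist y x < ε / 3 := by
      have : Continuous fun y => (2 * M + d) / d * dist y x := by fun_prop
      refine (this.tendsto x).eventually (gt_mem_nhds ?_)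
      simp only [dist_self, mul_zero]
      positivity
    refine ⟨_, nhdsWithin_le_nhds (h3.and (ball_mem_nhds x hd)), ?_⟩
    filter_upwards [Metric.tendsto_nhds.1 (hg x hx) (ε / 3) (by positivity)] with i h4 y hy
    have a1 := h1 i y hy.2
    have a2 := h2 y hy.2
    have a3 := dist_triangle4 (g y) (g x) (f i x) (f i y)
    rw [dist_comm (g x), dist_comm (f i x) (f i y)] at a3
    have a4 := hy.1
    linarith
  have hgd : DifferentiableOn ℂ g Kᶜ := hl.differentiableOn (Eventually.of_forall hf) ho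
  have hga : AnalyticOnNhd ℂ g Kᶜ := hgd.analyticOnNhd ho
  have hne : ∀ z ∉ K, ∀ᶠ w in 𝓝[≠] z, g w ≠ g z := by
    intro z hz
    refine ((hga z hz).eventually_eq_or_eventually_ne analyticAt_const).resolve_left fun h => ?_
    have h1 := hga.eqOn_of_preconnected_of_eventuallyEq (g := fun _ => g z)
      analyticOnNhd_const hc hz h
    obtain ⟨w, hw⟩ : ∃ w : ℂ, ‖w‖ = R + |M| + ‖g z‖ + 1 :=
      ⟨((R + |M| + ‖g z‖ + 1 : ℝ) : ℂ), by rw [norm_real, Real.norm_of_nonneg (by positivity)]⟩
    have h2 : w ∉ K := hout w (by linarith [abs_nonneg M, norm_nonneg (g z)])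
    have h3 : ‖g w - w‖ ≤ M :=
      le_of_tendsto ((hg w h2).sub_const w).norm (Eventually.of_forall fun i => hM i w h2)
    rw [h1 h2] at h3
    have h4 := norm_sub_norm_le w (g z)
    rw [norm_sub_rev] at h4
    linarith [le_abs_self M]
  have hk := fun z (hz : z ∉ K) (V : Set ℂ) (hV : V ∈ 𝓝 z) =>
    KoLim.key ho hl hf hi hgd.continuousOn hz (hne z hz) hV
  refine ⟨g, hgd, fun x hx y hy e => ?_, ?_, hl, fun z hz => ?_⟩
  · by_contra hxy
    obtain ⟨V, W, hV, hW, hxV, hyW, hVW⟩ := t2_separation hxy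
    obtain ⟨η, hη, h1⟩ := hk x hx V (hV.mem_nhds hxV)
    obtain ⟨η', hη', h2⟩ := hk y hy W (hW.mem_nhds hyW)
    obtain ⟨i, h3, h4⟩ := (h1.and h2).exists
    obtain ⟨a, ha, ea⟩ := h3 (mem_ball_self hη)
    obtain ⟨b, hb, eb⟩ := h4 (mem_ball_self hη')
    have : a = b := hi i ha.2 hb.2 (by rw [ea, eb, e])
    exact Set.disjoint_left.1 hVW ha.1 (this ▸ hb.1)
  · refine squeeze_zero_norm' ?_
      ((tendsto_const_nhds (x := M)).div_atTop (tendsto_norm_cocompact_atTop (E := ℂ)))
    filter_upwards [(tendsto_norm_cocompact_atTop (E := ℂ)).eventually_ge_atTop R] with z hz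
    exact le_of_tendsto ((hg z (hout z hz)).sub_const z).norm
      (Eventually.of_forall fun i => hM' i z hz)
  · simpa only [univ_inter] using hk z hz univ univ_mem

end Vale.Agent.P116
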