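import Vale.Agent.P116.KoBase
import Vale.Agent.P128.Cau

open Set Filter Topology MeasureTheory Metric Complex
open scoped ENNReal ComplexConjugate Real

noncomputable section
namespace Vale.Agent.P116

namespace KoRep

theorem db_eq : Vale.Agent.P128.db = db := rfl

/-- a function vanishing near `K` times a function holomorphic off `K` is smooth -/
theorem smooth_mul {K : Set ℂ} {u g : ℂ → ℂ} (hK : IsCompact K) (hu : DifferentiableOn ℂ u Kᶜ)
    (hg : ContDiff ℝ (⊤ : ℕ∞) g) (h0 : ∀ᶠ z in 𝓝ˢ K, g z = 0) :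
    ContDiff ℝ (⊤ : ℕ∞) fun z => u z * g z := by
  refine contDiff_iff_contDiffAt.2 fun z => ?_
  by_cases hz : z ∈ K
  · have : (fun z => u z * g z) =ᶠ[𝓝 z] fun _ => 0 := by
      filter_upwards [h0.filter_mono (nhds_le_nhdsSet hz)] with w hw
      simp [hw]
    exact contDiffAt_const.congr_of_eventuallyEq this
  · have ho := hK.isClosed.isOpen_compl
    have h1 : ContDiffAt ℂ (⊤ : ℕ∞) u z := (hu.contDiffOn ho).contDiffAt (ho.mem_nhds hz)
    exact (h1.restrict_scalars ℝ).mul hg.contDiffAt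

theorem smooth_db {g : ℂ → ℂ} (hg : ContDiff ℝ (⊤ : ℕ∞) g) : ContDiff ℝ (⊤ : ℕ∞) (db g) := by
  have h := hg.fderiv_right (m := (⊤ : ℕ∞)) (by simp)
  unfold db
  exact (((h.clm_apply contDiff_const).add
    (contDiff_const.mul (h.clm_apply contDiff_const))).div_const _)

theorem cau_tendsto {ψ : ℂ → ℂ} (h : Continuous ψ) (hc : HasCompactSupport ψ) :
    Tendsto (Vale.Agent.P128.cau ψ) (cocompact ℂ) (𝓝 0) := by
  obtain ⟨R, hR⟩ := hc.isCompact.isBounded.subset_closedBall 0
  have hi : Integrable ψ := h.integrable_of_hasCompactSupport hc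
  have hn : Tendsto (fun a : ℂ => ‖a‖) (cocompact ℂ) atTop := tendsto_norm_cocompact_atTop (E := ℂ)
  have h1 : Tendsto (fun a : ℂ => ‖(1 / π : ℂ)‖ * ((∫ z, ‖ψ z‖) * (2 * ‖a‖⁻¹))) (cocompact ℂ)
      (𝓝 0) := by
    have := (((tendsto_inv_atTop_zero.comp hn).const_mul 2).const_mul (∫ z, ‖ψ z‖)).const_mul
      ‖(1 / π : ℂ)‖
    simpa using this
  refine squeeze_zero_norm' ?_ h1
  filter_upwards [hn.eventually_ge_atTop (2 * R), hn.eventually_gt_atTop 0] with a ha ha0
  rw [Vale.Agent.P128.cau, norm_mul]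
  refine mul_le_mul_of_nonneg_left ?_ (norm_nonneg _)
  rw [← integral_mul_const]
  refine norm_integral_le_of_norm_le (hi.norm.mul_const _) (Eventually.of_forall fun z => ?_)
  by_cases hz : ψ z = 0
  · simp [hz]
  · have h2 : ‖z‖ ≤ R := by simpa using hR (subset_tsupport _ hz)
    have h3 : ‖a‖ / 2 ≤ ‖a - z‖ := by linarith [norm_sub_norm_le a z]
    rw [norm_div, div_eq_mul_inv]
    refine mul_le_mul_of_nonneg_left ?_ (norm_nonneg _)
    have h4 := inv_anti₀ (by positivity) h3
    rwa [inv_div, div_eq_mul_inv] at h4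

end KoRep

open KoRep in
theorem rep_pf : S_Rep := by
  intro K u χ hK hu hu0 hχ hc h1 z hz
  set X : ℂ → ℂ := fun w => (χ w : ℂ) with hX
  have hXs : ContDiff ℝ (⊤ : ℕ∞) X := contDiff_ofReal hχ
  have hXc : HasCompactSupport X := hc.mono fun w hw h0 => hw (by simp [hX, h0])
  have hXd : ∀ w, DifferentiableAt ℝ X w := fun w => hXs.differentiable (by simp) w
  have hd0 : ∀ᶠ w in 𝓝ˢ K, db X w = 0 := by
    refine eventually_nhdsSet_iff_forall.2 fun w hw => ?_
    filter_upwards [(h1.filter_mono (nhds_le_nhdsSet hw)).eventually_nhds] with y hy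
    have : X =ᶠ[𝓝 y] fun _ => 1 := by
      filter_upwards [hy] with v hv
      simp [hX, hv]
    rw [db_congr this, db_of_hasDerivAt (hasDerivAt_const y (1 : ℂ))]
  set ψ : ℂ → ℂ := fun w => u w * db X w with hψ
  have hψs : ContDiff ℝ (⊤ : ℕ∞) ψ := smooth_mul hK hu (smooth_db hXs) hd0
  have hψc : HasCompactSupport ψ := (hasCompactSupport_db hXc).mul_left
  set W : ℂ → ℂ := fun w => u w * (1 - X w) with hW
  have hW0 : ∀ᶠ w in 𝓝ˢ K, 1 - X w = 0 := by
    filter_upwards [h1] with w hw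
    simp [hX, hw]
  have hWs : ContDiff ℝ (⊤ : ℕ∞) W := smooth_mul hK hu (contDiff_const.sub hXs) hW0
  have hWd : ∀ w, db W w = -ψ w := by
    intro w
    by_cases hw : w ∈ K
    · have : W =ᶠ[𝓝 w] fun _ => 0 := by
        filter_upwards [hW0.filter_mono (nhds_le_nhdsSet hw)] with y hy
        simp [hW, hy]
      rw [db_congr this, db_of_hasDerivAt (hasDerivAt_const w (0 : ℂ))]
      simp [hψ, hd0.self_of_nhdsSet w hw]
    · have h2 := (hu.differentiableAt (hK.isClosed.isOpen_compl.mem_nhds hw))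
      rw [hW, db_mul (v := fun w => 1 - X w) (h2.restrictScalars ℝ)
          ((differentiableAt_const (1 : ℂ)).fun_sub (hXd w)),
        db_of_hasDerivAt h2.hasDerivAt, db_sub (differentiableAt_const _) (hXd w),
        db_of_hasDerivAt (hasDerivAt_const w (1 : ℂ))]
      simp [hψ]
  have hcs : ContDiff ℝ (⊤ : ℕ∞) (Vale.Agent.P128.cau ψ) := by
    rw [Vale.Agent.P128.Cau.cau_eq]
    exact hψc.contDiff_convolution_right _ Vale.Agent.P128.Cau.k_int hψs
  have hcd : ∀ w, db (Vale.Agent.P128.cau ψ) w = ψ w := fun w => by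
    rw [← db_eq, Vale.Agent.P128.Cau.db_cau hψs hψc, Vale.Agent.P128.Cau.pompeiu hψs hψc]
  have hE : Differentiable ℂ fun w => W w + Vale.Agent.P128.cau ψ w := fun w => by
    have a1 := hWs.differentiable (by simp) w
    have a2 := hcs.differentiable (by simp) w
    refine (hasDerivAt_of_db (a1.add a2) ?_).differentiableAt
    have := db_add a1 a2
    rw [hWd, hcd, neg_add_cancel] at this
    exact this
  have hWt : Tendsto W (cocompact ℂ) (𝓝 0) := by
    refine hu0.congr' ?_
    filter_upwards [hc.isCompact.compl_mem_cocompact] with w hw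
    simp [hW, hX, image_eq_zero_of_notMem_tsupport hw]
  have hT : Tendsto (fun w => W w + Vale.Agent.P128.cau ψ w) (cocompact ℂ) (𝓝 0) := by
    simpa using hWt.add (cau_tendsto hψs.continuous hψc)
  have h3 := hE.apply_eq_of_tendsto_cocompact z hT
  have h4 : W z = u z := by simp [hW, hX, image_eq_zero_of_notMem_tsupport hz]
  rw [h4, Vale.Agent.P128.cau] at h3
  linear_combination h3

end Vale.Agent.P116
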