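import Vale.Agent.P116.KoIbp
import Vale.Agent.P116.KoMv
import Vale.Agent.P116.KoIso
import Vale.Agent.P116.KoGreen
import Vale.Agent.P116.KoMin
import Vale.Agent.P116.KoWeyl
import Vale.Agent.P116.KoRep
import Vale.Agent.P116.KoLog
import Vale.Agent.P116.KoGlue
import Vale.Agent.P116.KoArg
import Vale.Agent.P116.KoPol
import Vale.Agent.P116.KoSmall
import Vale.Agent.P116.KoBump
import Vale.Agent.P116.KoEnc
import Vale.Agent.P116.KoDeg
import Vale.Agent.P116.KoOrth
import Vale.Agent.P116.KoArea
import Vale.Agent.P116.KoCov
import Vale.Agent.P116.KoProp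
import Vale.Agent.P116.KoLift
import Vale.Agent.P116.KoComp
import Vale.Agent.P116.KoConn
import Vale.Agent.P116.KoBnd
import Vale.Agent.P116.KoLim
import Vale.Agent.P116.KoPolL
import Vale.Agent.P116.KoEnergy
import Vale.Agent.P116.KoVar
import Vale.Agent.P116.KoPrim
import Vale.Agent.P116.KoExt
import Vale.Agent.P116.KoDca
import Vale.Agent.P116.KoPt
import Vale.Agent.P116.KoClu
import Vale.Agent.P116.KoNone
import Vale.Agent.P116.KoFin
import Vale.Agent.P116.KoDis
import Vale.Agent.P116.KoFk
import Vale.Agent.P116.KoMax
import Vale.Agent.P116.KoInt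
import Vale.Agent.P116.KoLen
import Vale.Agent.P116.KoPack
import Vale.Agent.P116.KoBlk
import Vale.Agent.P116.KoSel
import Vale.Agent.P116.KoKe
import Vale.Agent.P116.KoPla
import Vale.Agent.P116.KoSphA
import Vale.Agent.P116.KoSphB
import Vale.Agent.P116.KoAsm

namespace Vale.Agent.P116

theorem ibp_all : S_Ibp := ibp_pf
theorem mv_all : S_Mv := mv_pf
theorem iso_all : S_Iso := iso_pf
theorem green_all : S_Green := green_pf
theorem min_all : S_Min := min_pf
theorem weyl_all : S_Weyl := weyl_pf
theorem rep_all : S_Rep := rep_pf
theorem log_all : S_Log := log_pf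
theorem glue_all : S_Glue := glue_pf
theorem arg_all : S_Arg := arg_pf
theorem pol_all : S_Pol := pol_pf
theorem small_all : S_Small := small_pf mv_all
theorem bump_all : S_Bump := bump_pf
theorem enc_all : S_Enc := enc_pf
theorem deg_all : S_Deg := deg_pf
theorem orth_all : S_Orth := orth_pf ibp_all
theorem area_all : S_Area := area_pf ibp_all orth_all
theorem cov_all : S_Cov := cov_pf ibp_all
theorem prop_all : S_Prop := prop_pf
theorem lift_all : S_Lift := lift_pf prop_all
theorem comp_all : S_Comp := comp_pf prop_all lift_all
theorem conn_all : S_Conn := conn_pf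
theorem bnd_all : S_Bnd := bnd_pf mv_all
theorem lim_all : S_Lim := lim_pf
theorem polL_all : S_PolL := polL_pf
theorem energy_all : S_Energy := energy_pf ibp_all iso_all green_all
theorem var_all : S_Var := var_pf min_all energy_all
theorem prim_all : S_Prim := prim_pf ibp_all mv_all rep_all log_all glue_all
theorem ext_all : S_Ext := ext_pf var_all weyl_all prim_all
theorem dca_all : S_Dca := dca_pf ibp_all arg_all
theorem pt_all : S_Pt := pt_pf pol_all small_all bump_all
theorem clu_all : S_Clu := clu_pf dca_all pt_all enc_all
theorem none_all : S_None := none_pf deg_all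
theorem fin_all : S_Fin := fin_pf
theorem dis_all : S_Dis := dis_pf lift_all
theorem fk_all : S_Fk := fk_pf ext_all clu_all none_all area_all cov_all fin_all dis_all
theorem max_all : S_Max := max_pf prop_all
theorem int_all : S_Int := int_pf
theorem len_all : S_Len := len_pf max_all int_all
theorem pack_all : S_Pack := pack_pf
theorem blk_all : S_Blk := blk_pf len_all pack_all polL_all
theorem sel_all : S_Sel := sel_pf
theorem ke_all : S_Ke := ke_pf blk_all sel_all
theorem pla_all : SquareThm → SqToDisc → Planar := pla_pf prop_all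
theorem sphA_all : S_SphA := sphA_pf prop_all
theorem sphB_all : Planar → Koebe := sphB_pf sphA_all
theorem asm_all : SqToDisc := asm_pf fk_all conn_all bnd_all lim_all ke_all comp_all

theorem koebe_of_squareThm (h : SquareThm) : Koebe := sphB_all (pla_all h asm_all)

end Vale.Agent.P116
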