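import Mathlib

/-! Definitions used in the statement of the circle domain conjecture of Koebe.
The Riemann sphere is the one point compactification `OnePoint ℂ` of the plane. -/

open Set Filter Topology OnePoint

namespace Vale.Agent.P116

/-- The two standard coordinates of the Riemann sphere, as maps from the plane to the sphere:
`chart true z = z`, and `chart false z = 1 / z` with `1 / 0 = ∞`. -/
noncomputable def chart (b : Bool) (z : ℂ) : OnePoint ℂ :=
  if b = true then (z : OnePoint ℂ) else if z = 0 then ∞ else ((z⁻¹ : ℂ) : OnePoint ℂ)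

/-- `f` is holomorphic on `G` in the standard charts: near every point `p` of `G`, read in a
standard chart at `p` and a standard chart at `f p`, the map `f` is an analytic function. -/
def HolOn (f : OnePoint ℂ → OnePoint ℂ) (G : Set (OnePoint ℂ)) : Prop :=
  ∀ p ∈ G, ∃ (b b' : Bool) (z : ℂ) (φ : ℂ → ℂ), chart b z = p ∧ AnalyticAt ℂ φ z ∧
    ∀ᶠ ζ in 𝓝 z, f (chart b ζ) = chart b' (φ ζ)

/-- The map `z ↦ (a z + b) / (c z + d)` on the Riemann sphere: `∞` goes to `a / c` (to `∞` when
`c = 0`), and a point `z` of the plane goes to `(a z + b) / (c z + d)` (to `∞` when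
`c z + d = 0`). -/
noncomputable def mob (a b c d : ℂ) (p : OnePoint ℂ) : OnePoint ℂ :=
  OnePoint.elim p (if c = 0 then ∞ else ((a / c : ℂ) : OnePoint ℂ))
    (fun z : ℂ => if c * z + d = 0 then ∞ else (((a * z + b) / (c * z + d) : ℂ) : OnePoint ℂ))

/-- A closed round disc: the image of the closed unit disc under a Moebius transformation. -/
def IsRoundDisc (D : Set (OnePoint ℂ)) : Prop :=
  ∃ a b c d : ℂ, a * d - b * c ≠ 0 ∧
    D = mob a b c d '' ((fun z : ℂ => (z : OnePoint ℂ)) '' Metric.closedBall 0 1)

/-- A domain: a nonempty connected open subset of the sphere. -/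
def IsDomain (G : Set (OnePoint ℂ)) : Prop := IsOpen G ∧ G.Nonempty ∧ IsPreconnected G

/-- A circle domain: a domain each of whose complementary components is a point or a closed
round disc. -/
def IsCircleDomain (Ω : Set (OnePoint ℂ)) : Prop :=
  IsDomain Ω ∧ ∀ p ∈ Ωᶜ,
    connectedComponentIn Ωᶜ p = {p} ∨ IsRoundDisc (connectedComponentIn Ωᶜ p)

end Vale.Agent.P116
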