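import Vale.Agent.P116.KoDefs
import Vale.Agent.P116.Stm

/-! Definitions and the statements of the steps of the passage from square domains to circle
domains. -/

open Set Filter Topology MeasureTheory Metric Complex
open scoped ENNReal ComplexConjugate Real

noncomputable section
namespace Vale.Agent.P116

/-- centre of the square -/
def cen (a b s : ℝ) : ℂ := ⟨a + s / 2, b + s / 2⟩

/-- length of the image of a circle -/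
def len (H : ℂ → ℂ) (c : ℂ) (ρ : ℝ) : ℝ :=
  ∫ θ in (0 : ℝ)..2 * π, ‖deriv (fun t => H (circleMap c ρ t)) θ‖

/-- `dz` of `w ↦ w χ(w)` -/
def ph (χ : ℂ → ℝ) (z : ℂ) : ℂ := dz (fun w => w * (χ w : ℂ)) z

/-- a smooth cutoff equal to one on the ball of radius `R` -/
def KCut (R : ℝ) (χ : ℂ → ℝ) : Prop :=
  ContDiff ℝ (⊤ : ℕ∞) χ ∧ HasCompactSupport χ ∧ ∀ z ∈ ball (0 : ℂ) R, χ z = 1

/-- `f` maps the points of `G` close to `S` close to the disc `closedBall c r` -/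
def Clus (f : ℂ → ℂ) (G S : Set ℂ) (c : ℂ) (r : ℝ) : Prop :=
  ∀ ε > 0, ∀ᶠ z in 𝓝ˢ S, z ∈ G → ‖f z - c‖ ≤ r + ε

/-- closed annulus -/
def ann (z : ℂ) (ρ : ℝ) : Set ℂ := {w | ρ ≤ ‖w - z‖ ∧ ‖w - z‖ ≤ 2 * ρ}

/-- length of the image under `f` of the part in `G` of a circle -/
def arcLen (f : ℂ → ℂ) (G : Set ℂ) (z : ℂ) (t : ℝ) : ℝ≥0∞ :=
  ∫⁻ θ in Ioo (-π) π, G.indicator (fun w => ‖deriv f w‖ₑ) (circleMap z t θ) * ENNReal.ofReal t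

/-- the radial derivative of `W` about `c`, divided by the square of the radius -/
def rad (W : ℂ → ℂ) (c z : ℂ) : ℂ := fderiv ℝ W z (z - c) / ((‖z - c‖ ^ 2 : ℝ) : ℂ)

section
variable {ι : Type}

/-- the union of the squares -/
def KK (a b s : ι → ℝ) : Set ℂ := ⋃ j, sq (a j) (b j) (s j)

/-- finitely many disjoint squares with connected complement -/
structure Cfg (a b s : ι → ℝ) (R : ℝ) : Prop where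
  pos : ∀ j, 0 < s j
  dis : Pairwise fun i j => Disjoint (sq (a i) (b i) (s i)) (sq (a j) (b j) (s j))
  bdd : ∀ j, sq (a j) (b j) (s j) ⊆ ball 0 R
  con : IsPreconnected (KK a b s)ᶜ

/-- admissible test maps -/
def KAdm (a b s : ι → ℝ) (H : ℂ → ℂ) : Prop :=
  ContDiff ℝ (⊤ : ℕ∞) H ∧ HasCompactSupport H ∧ ∀ j, ∀ z ∈ sq (a j) (b j) (s j),
    s j / 4 ≤ ‖z - cen (a j) (b j) (s j)‖ → fderiv ℝ H z (z - cen (a j) (b j) (s j)) = 0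

/-- a cutoff for the square `j` -/
def Loc (a b s : ι → ℝ) (j : ι) (χ : ℂ → ℝ) : Prop :=
  ContDiff ℝ (⊤ : ℕ∞) χ ∧ HasCompactSupport χ ∧ (∀ᶠ z in 𝓝ˢ (sq (a j) (b j) (s j)), χ z = 1) ∧
    ∀ k, k ≠ j → Disjoint (tsupport χ) (sq (a k) (b k) (s k))

/-- the extremal map -/
structure Ext [Fintype ι] (a b s : ι → ℝ) (χ : ℂ → ℝ) (f : ℂ → ℂ) (r : ι → ℝ) : Prop where
  hol : DifferentiableOn ℂ f (KK a b s)ᶜ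
  inf : Tendsto (fun z => f z - z) (cocompact ℂ) (𝓝 0)
  int : IntegrableOn (fun z => ‖deriv f z - 1‖ ^ 2) (KK a b s)ᶜ
  nn : ∀ j, 0 ≤ r j
  var : ∀ H, KAdm a b s H → 0 ≤ (∫ z in (KK a b s)ᶜ, deriv f z * conj (dz H z)).re +
    1 / 2 * ∑ j, r j * len H (cen (a j) (b j) (s j)) (s j / 4)
  ene : (∫ z in (KK a b s)ᶜ, ‖deriv f z - 1‖ ^ 2) +
    2 * (∫ z in (KK a b s)ᶜ, (deriv f z - 1) * conj (ph χ z)).re + π * ∑ j, r j ^ 2 ≤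
      volume.real (KK a b s)

/-- the conformal map onto a circle domain, without disjointness of the discs -/
structure FK0 (a b s : ι → ℝ) (f : ℂ → ℂ) (c : ι → ℂ) (r : ι → ℝ) : Prop where
  hol : DifferentiableOn ℂ f (KK a b s)ᶜ
  inj : InjOn f (KK a b s)ᶜ
  inf : Tendsto (fun z => f z - z) (cocompact ℂ) (𝓝 0)
  nn : ∀ j, 0 ≤ r j
  img : f '' (KK a b s)ᶜ = (⋃ j, closedBall (c j) (r j))ᶜ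
  clu : ∀ j, Clus f (KK a b s)ᶜ (sq (a j) (b j) (s j)) (c j) (r j)

/-- the conformal map onto a circle domain -/
structure FK (a b s : ι → ℝ) (f : ℂ → ℂ) (c : ι → ℂ) (r : ι → ℝ) : Prop
    extends FK0 a b s f c r where
  dis : Pairwise fun i j => Disjoint (closedBall (c i) (r i)) (closedBall (c j) (r j))

/-- the set valued extension of `f` applied to a set -/
def Phi (a b s : ι → ℝ) (f : ℂ → ℂ) (c : ι → ℂ) (r : ι → ℝ) (A : Set ℂ) : Set ℂ :=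
  f '' (A ∩ (KK a b s)ᶜ) ∪
    {w | ∃ j, (sq (a j) (b j) (s j) ∩ A).Nonempty ∧ w ∈ closedBall (c j) (r j)}

/-- the disc (or point) that corresponds to `z` -/
def Own (a b s : ι → ℝ) (f : ℂ → ℂ) (c : ι → ℂ) (r : ι → ℝ) (z c0 : ℂ) (r0 : ℝ) : Prop :=
  (z ∉ KK a b s ∧ c0 = f z ∧ r0 = 0) ∨ ∃ p, z ∈ sq (a p) (b p) (s p) ∧ c0 = c p ∧ r0 = r p

end

/-! ### General tools -/

def S_Ibp : Prop :=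
  (∀ (W : ℂ → ℂ) (v : ℂ), ContDiff ℝ 1 W → HasCompactSupport W → ∫ z, fderiv ℝ W z v = 0) ∧
  ∀ (U T : Set ℂ) (u χ : ℂ → ℂ), IsOpen U → IsCompact T → T ⊆ U → ContDiffOn ℝ 1 u U →
    ContDiff ℝ 2 χ → (∀ z ∉ T, fderiv ℝ χ z = 0) → Integrable (br u χ) ∧ ∫ z, br u χ z = 0

def S_Mv : Prop :=
  ∀ (g : ℂ → ℂ) (z : ℂ) (d : ℝ), 0 < d → DifferentiableOn ℂ g (ball z d) →
    IntegrableOn (fun w => ‖g w‖ ^ 2) (ball z d) →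
    π * d ^ 2 * ‖g z‖ ^ 2 ≤ ∫ w in ball z d, ‖g w‖ ^ 2

def S_Iso : Prop :=
  ∀ γ : ℝ → ℂ, ContDiff ℝ 1 γ → γ (2 * π) = γ 0 →
    1 / 2 * (∫ t in (0 : ℝ)..2 * π, (conj (γ t) * deriv γ t).im) ≤
      1 / (4 * π) * (∫ t in (0 : ℝ)..2 * π, ‖deriv γ t‖) ^ 2

def S_Green : Prop :=
  ∀ (H : ℂ → ℂ) (c : ℂ) (ρ : ℝ), ContDiff ℝ 2 H → 0 < ρ →
    ∫ z in ball c ρ, (‖dz H z‖ ^ 2 - ‖db H z‖ ^ 2) =
      1 / 2 * ∫ t in (0 : ℝ)..2 * π,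
        (conj (H (circleMap c ρ t)) * deriv (fun θ => H (circleMap c ρ θ)) t).im

def S_Min : Prop :=
  ∀ (V E ι : Type) [AddCommGroup V] [Module ℝ V] [NormedAddCommGroup E] [InnerProductSpace ℝ E]
    [CompleteSpace E] [Fintype ι] (L : V →ₗ[ℝ] E) (u0 : E) (l : V →ₗ[ℝ] ℝ)
    (p : ι → Seminorm ℝ V) (m : ℝ),
    (∀ v, m ≤ ‖L v + u0‖ ^ 2 + 2 * l v + π * ∑ j, p j v ^ 2) →
    ∃ (u : E) (r : ι → ℝ), (∀ j, 0 ≤ r j) ∧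
      (∀ v, 0 ≤ inner ℝ u (L v) + l v + π * ∑ j, r j * p j v) ∧
      ‖u‖ ^ 2 - 2 * inner ℝ u u0 + π * ∑ j, r j ^ 2 ≤ -m

def S_Weyl : Prop :=
  ∀ (U : Set ℂ) (g : ℂ → ℂ), IsOpen U → LocallyIntegrableOn g U →
    (∀ H : ℂ → ℂ, ContDiff ℝ (⊤ : ℕ∞) H → HasCompactSupport H → tsupport H ⊆ U →
      ∫ z in U, g z * conj (dz H z) = 0) →
    ∃ F : ℂ → ℂ, DifferentiableOn ℂ F U ∧ F =ᵐ[volume.restrict U] g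

def S_Rep : Prop :=
  ∀ (K : Set ℂ) (u : ℂ → ℂ) (χ : ℂ → ℝ), IsCompact K → DifferentiableOn ℂ u Kᶜ →
    Tendsto u (cocompact ℂ) (𝓝 0) → ContDiff ℝ (⊤ : ℕ∞) χ → HasCompactSupport χ →
    (∀ᶠ z in 𝓝ˢ K, χ z = 1) → ∀ z ∉ tsupport χ,
      u z = -(1 / π : ℂ) * ∫ ζ, u ζ * db (fun w => (χ w : ℂ)) ζ / (z - ζ)

def S_Log : Prop :=
  ∀ (N : Set ℂ) (ψ : ℂ → ℂ), IsCompact N → Convex ℝ N → Continuous ψ → tsupport ψ ⊆ N →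
    ∫ ζ, ψ ζ = 0 → ∃ k : ℂ → ℂ, (∀ z ∉ N, HasDerivAt k (∫ ζ, ψ ζ / (z - ζ)) z) ∧
      Tendsto k (cocompact ℂ) (𝓝 0)

def S_Glue : Prop :=
  ∀ (G : ℕ → Set ℂ) (u : ℂ → ℂ) (k : ℕ → ℂ → ℂ) (R : ℝ), (∀ n, IsOpen (G n)) → Monotone G →
    IsPreconnected (⋃ n, G n) → (∀ n z, R < ‖z‖ → z ∈ G n) →
    (∀ n, ∀ z ∈ G n, HasDerivAt (k n) (u z) z) → (∀ n, Tendsto (k n) (cocompact ℂ) (𝓝 0)) →
    ∃ F : ℂ → ℂ, (∀ z ∈ ⋃ n, G n, HasDerivAt F (u z) z) ∧ Tendsto F (cocompact ℂ) (𝓝 0)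

def S_Arg : Prop :=
  ∀ (h : ℝ → ℂ) (c : ℂ), ContDiff ℝ (⊤ : ℕ∞) h → Function.Periodic h (2 * π) →
    ContDiffOn ℝ (⊤ : ℕ∞) (fun z => h (arg (z - c))) {c}ᶜ ∧
    (∀ z, z ≠ c → ∀ v, fderiv ℝ (fun z => h (arg (z - c))) z v =
      deriv h (arg (z - c)) * ((v / (z - c)).im : ℂ)) ∧
    ∀ ρ θ : ℝ, 0 < ρ → h (arg (circleMap c ρ θ - c)) = h θ

def S_Pol : Prop :=
  ∀ (U : Set ℂ) (W : ℂ → ℂ) (ψ : ℝ → ℝ) (c : ℂ) (ρ R : ℝ), IsOpen U → ContDiffOn ℝ 1 W U →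
    (∀ z, R < ‖z‖ → W z = 0) → Continuous ψ → 0 < ρ →
    (∀ θ ∈ tsupport ψ, ∀ t, ρ ≤ t → circleMap c t θ ∈ U) →
    IntegrableOn (fun z => (ψ (arg (z - c)) : ℂ) * rad W c z) {z | ρ ≤ ‖z - c‖} ∧
    ∫ z in {z | ρ ≤ ‖z - c‖}, (ψ (arg (z - c)) : ℂ) * rad W c z =
      -∫ θ in (-π)..π, (ψ θ : ℂ) * W (circleMap c ρ θ)

def S_Small : Prop :=
  ∀ (G : Set ℂ) (f : ℂ → ℂ), IsOpen G → DifferentiableOn ℂ f G →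
    IntegrableOn (fun z => ‖deriv f z - 1‖ ^ 2) G → ∀ ε > 0, ∃ δ > 0, ∀ (z : ℂ) (d : ℝ),
      0 < d → d < δ → (IntegrableOn (fun w => ‖deriv f w‖) (ball z (7 * d) ∩ G) ∧
        ∫ w in ball z (7 * d) ∩ G, ‖deriv f w‖ ≤ ε * d) ∧
      (ball z d ⊆ G → ∀ y ∈ closedBall z (d / 2), ‖f y - f z‖ ≤ ε)

def S_Bump : Prop :=
  ∀ (c z : ℂ) (d : ℝ), 0 < d → d ≤ ‖z - c‖ → ∃ ψ : ℝ → ℝ, ContDiff ℝ (⊤ : ℕ∞) ψ ∧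
    Function.Periodic ψ (2 * π) ∧ (∀ θ, 0 ≤ ψ θ) ∧ (∫ θ in (0 : ℝ)..2 * π, ψ θ) = 1 ∧
    (∀ θ, ψ θ ≤ 2 * ‖z - c‖ / d) ∧
    ∀ θ ∈ tsupport ψ, circleMap c ‖z - c‖ θ ∈ closedBall z (d / 2)

def S_Enc : Prop :=
  ∀ (f : ℂ → ℂ) (G S : Set ℂ) (r : ℝ), IsCompact S → 0 ≤ r →
    (∀ ε > 0, ∃ δ > 0, ∀ (n : ℕ) (α z : Fin n → ℂ), (∀ k, z k ∈ G ∧ infDist (z k) S < δ) →
      ∑ k, α k = 0 → (∑ k, conj (α k) * f (z k)).re ≤ (r + ε) * ∑ k, ‖α k‖) →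
    ∃ c, Clus f G S c r

def S_Deg : Prop :=
  ∀ q : ℂ → ℂ, Continuous q → Tendsto (fun z => q z / z) (cocompact ℂ) (𝓝 1) →
    (∀ z, q z = 0 → AnalyticAt ℂ q z ∧ ¬ ∀ᶠ w in 𝓝 z, q w = 0) → ∃! z, q z = 0

def S_Orth : Prop :=
  ∀ (K : Set ℂ) (u k : ℂ → ℂ), IsCompact K → DifferentiableOn ℂ u Kᶜ →
    IntegrableOn (fun z => ‖u z‖ ^ 2) Kᶜ → ContDiffOn ℝ 1 k Kᶜ →
    (∀ᶠ z in 𝓝ˢ K, z ∉ K → k z = 0) → Tendsto k (cocompact ℂ) (𝓝 0) →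
    IntegrableOn (fun z => ‖dz k z‖ ^ 2) Kᶜ → ∫ z in Kᶜ, u z * conj (dz k z) = 0

def S_Area : Prop :=
  ∀ (K : Set ℂ) (R R' : ℝ) (χ κ : ℂ → ℝ) (f : ℂ → ℂ), IsCompact K → K ⊆ ball 0 R → KCut R χ →
    KCut R' κ → DifferentiableOn ℂ f Kᶜ → Tendsto (fun z => f z - z) (cocompact ℂ) (𝓝 0) →
    IntegrableOn (fun z => ‖deriv f z - 1‖ ^ 2) Kᶜ → (∀ᶠ z in 𝓝ˢ K, z ∉ K → ‖f z‖ < R') →
    (∫ z in Kᶜ, ((‖deriv f z‖ ^ 2 : ℝ) : ℂ) * ph κ (f z)).re =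
      (∫ z in Kᶜ, ‖deriv f z - 1‖ ^ 2) +
        2 * (∫ z in Kᶜ, (deriv f z - 1) * conj (ph χ z)).re - volume.real K

def S_Cov : Prop :=
  ∀ (K D : Set ℂ) (R' : ℝ) (κ : ℂ → ℝ) (f : ℂ → ℂ), IsCompact K → IsCompact D →
    D ⊆ ball 0 R' → KCut R' κ → DifferentiableOn ℂ f Kᶜ →
    Tendsto (fun z => f z - z) (cocompact ℂ) (𝓝 0) →
    IntegrableOn (fun z => ‖deriv f z - 1‖ ^ 2) Kᶜ → (∀ w ∉ D, ∃! z, z ∉ K ∧ f z = w) →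
    IntegrableOn (fun z => ‖deriv f z‖ ^ 2) (Kᶜ ∩ f ⁻¹' D) ∧
    (∫ z in Kᶜ, ((‖deriv f z‖ ^ 2 : ℝ) : ℂ) * ph κ (f z)).re =
      (∫ z in Kᶜ ∩ f ⁻¹' D, ‖deriv f z‖ ^ 2) - volume.real D

def S_Prop : Prop :=
  ∀ (K : Set ℂ) (f : ℂ → ℂ) (c : ℂ), IsCompact K → DifferentiableOn ℂ f Kᶜ → InjOn f Kᶜ →
    Tendsto (fun z => f z - z) (cocompact ℂ) (𝓝 c) →
    (∀ U, IsOpen U → U ⊆ Kᶜ → IsOpen (f '' U)) ∧ IsCompact (f '' Kᶜ)ᶜ ∧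
      ∀ U, IsOpen U → K ⊆ U → IsClosed (f '' Uᶜ)

def S_Lift : Prop :=
  ∀ (K K1 K2 : Set ℂ) (f : ℂ → ℂ) (c : ℂ), IsCompact K1 → IsCompact K2 → Disjoint K1 K2 →
    K = K1 ∪ K2 → IsPreconnected Kᶜ → DifferentiableOn ℂ f Kᶜ → InjOn f Kᶜ →
    Tendsto (fun z => f z - z) (cocompact ℂ) (𝓝 c) →
    ∃ l : ℂ → ℝ, Continuous l ∧ (∀ w ∉ f '' Kᶜ, l w = 0 ∨ l w = 1) ∧
      (∀ᶠ z in 𝓝ˢ K1, z ∉ K → l (f z) = 1) ∧ ∀ᶠ z in 𝓝ˢ K2, z ∉ K → l (f z) = 0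

def S_Comp : Prop :=
  ∀ (K : Set ℂ) (f : ℂ → ℂ) (c : ℂ), IsCompact K → IsPreconnected Kᶜ →
    DifferentiableOn ℂ f Kᶜ → InjOn f Kᶜ → Tendsto (fun z => f z - z) (cocompact ℂ) (𝓝 c) →
    (∀ z ∈ K, ∃ (a : ℂ) (r : ℝ), 0 ≤ r ∧ Clus f Kᶜ (connectedComponentIn K z) a r ∧
      Disjoint (closedBall a r) (f '' Kᶜ)) →
    ∀ w ∈ (f '' Kᶜ)ᶜ, ∃ (a : ℂ) (r : ℝ), 0 ≤ r ∧
      connectedComponentIn (f '' Kᶜ)ᶜ w = closedBall a r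

def S_Conn : Prop :=
  ∀ K A : Set ℂ, IsCompact K → IsPreconnected Kᶜ → A ⊆ K →
    (∀ z ∈ A, connectedComponentIn K z ⊆ A) → IsPreconnected Aᶜ

def S_Bnd : Prop :=
  ∀ R C : ℝ, 0 < R → ∃ M : ℝ, ∀ (K : Set ℂ) (f : ℂ → ℂ), IsCompact K → K ⊆ ball 0 R →
    DifferentiableOn ℂ f Kᶜ → InjOn f Kᶜ → Tendsto (fun z => f z - z) (cocompact ℂ) (𝓝 0) →
    IntegrableOn (fun z => ‖deriv f z - 1‖ ^ 2) Kᶜ → (∫ z in Kᶜ, ‖deriv f z - 1‖ ^ 2) ≤ C →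
    (∀ z, 2 * R ≤ ‖z‖ → ‖f z - z‖ ≤ M / ‖z‖) ∧ (∀ z ∉ K, ‖f z - z‖ ≤ M) ∧
      (f '' Kᶜ)ᶜ ⊆ closedBall 0 M

def S_Lim : Prop :=
  ∀ (J : Type) (𝒰 : Ultrafilter J) (K : Set ℂ) (f : J → ℂ → ℂ) (R M : ℝ), IsCompact K →
    IsPreconnected Kᶜ → 0 < R → K ⊆ ball 0 R → (∀ i, DifferentiableOn ℂ (f i) Kᶜ) →
    (∀ i, InjOn (f i) Kᶜ) → (∀ i, ∀ z ∉ K, ‖f i z - z‖ ≤ M) →
    (∀ i z, R ≤ ‖z‖ → ‖f i z - z‖ ≤ M / ‖z‖) →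
    ∃ g : ℂ → ℂ, DifferentiableOn ℂ g Kᶜ ∧ InjOn g Kᶜ ∧
      Tendsto (fun z => g z - z) (cocompact ℂ) (𝓝 0) ∧ TendstoLocallyUniformlyOn f g 𝒰 Kᶜ ∧
      ∀ z ∉ K, ∃ η > 0, ∀ᶠ i in (𝒰 : Filter J), ball (g z) η ⊆ f i '' Kᶜ

def S_PolL : Prop :=
  ∀ (F : ℂ → ℝ≥0∞) (z : ℂ) (ρ : ℝ), Measurable F → 0 < ρ →
    Measurable (fun t : ℝ => ∫⁻ θ in Ioo (-π) π, F (circleMap z t θ) * ENNReal.ofReal t) ∧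
    ∫⁻ t in Icc ρ (2 * ρ), ∫⁻ θ in Ioo (-π) π, F (circleMap z t θ) * ENNReal.ofReal t =
      ∫⁻ w in ann z ρ, F w

/-! ### The finite problem -/

def S_Energy : Prop :=
  ∀ (ι : Type) [Fintype ι] (a b s : ι → ℝ) (R : ℝ) (χ : ℂ → ℝ) (H : ℂ → ℂ), Cfg a b s R →
    KCut R χ → KAdm a b s H →
    -volume.real (KK a b s) ≤ (∫ z in (KK a b s)ᶜ, ‖dz H z - ph χ z‖ ^ 2) +
      2 * (∫ z in (KK a b s)ᶜ, dz H z).re +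
      1 / (4 * π) * ∑ j, len H (cen (a j) (b j) (s j)) (s j / 4) ^ 2

def S_Var : Prop :=
  ∀ (ι : Type) [Fintype ι] (a b s : ι → ℝ) (R : ℝ) (χ : ℂ → ℝ), Cfg a b s R → KCut R χ →
    ∃ (u : ℂ → ℂ) (r : ι → ℝ), MemLp u 2 (volume.restrict (KK a b s)ᶜ) ∧ (∀ j, 0 ≤ r j) ∧
      (∀ H, KAdm a b s H → 0 ≤ (∫ z in (KK a b s)ᶜ, (1 + u z) * conj (dz H z)).re +
        1 / 2 * ∑ j, r j * len H (cen (a j) (b j) (s j)) (s j / 4)) ∧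
      (∫ z in (KK a b s)ᶜ, ‖u z‖ ^ 2) + 2 * (∫ z in (KK a b s)ᶜ, u z * conj (ph χ z)).re +
        π * ∑ j, r j ^ 2 ≤ volume.real (KK a b s)

def S_Prim : Prop :=
  ∀ (ι : Type) [Fintype ι] (a b s : ι → ℝ) (R : ℝ) (g : ℂ → ℂ), Cfg a b s R →
    DifferentiableOn ℂ g (KK a b s)ᶜ → IntegrableOn (fun z => ‖g z - 1‖ ^ 2) (KK a b s)ᶜ →
    (∀ j χ, Loc a b s j χ → ∫ z in (KK a b s)ᶜ, g z * db (fun w => (χ w : ℂ)) z = 0) →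
    ∃ f : ℂ → ℂ, (∀ z ∉ KK a b s, HasDerivAt f (g z) z) ∧
      Tendsto (fun z => f z - z) (cocompact ℂ) (𝓝 0)

def S_Ext : Prop :=
  ∀ (ι : Type) [Fintype ι] (a b s : ι → ℝ) (R : ℝ) (χ : ℂ → ℝ), Cfg a b s R → KCut R χ →
    ∃ f r, Ext a b s χ f r

def S_Dca : Prop :=
  ∀ (ι : Type) [Fintype ι] (a b s : ι → ℝ) (R : ℝ) (χ κ : ℂ → ℝ) (f : ℂ → ℂ) (r : ι → ℝ)
    (j : ι) (ψ : ℝ → ℂ), Cfg a b s R → Ext a b s χ f r → Loc a b s j κ →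
    ContDiff ℝ (⊤ : ℕ∞) ψ → Function.Periodic ψ (2 * π) → (∫ θ in (0 : ℝ)..2 * π, ψ θ) = 0 →
    ‖∫ z in (KK a b s)ᶜ, conj (ψ (arg (z - cen (a j) (b j) (s j)))) *
        rad (fun w => f w * (κ w : ℂ)) (cen (a j) (b j) (s j)) z‖ ≤
      r j * ∫ θ in (0 : ℝ)..2 * π, ‖ψ θ‖

def S_Pt : Prop :=
  ∀ (ι : Type) [Fintype ι] (a b s : ι → ℝ) (R : ℝ) (κ : ℂ → ℝ) (f : ℂ → ℂ) (j : ι),
    Cfg a b s R → DifferentiableOn ℂ f (KK a b s)ᶜ →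
    IntegrableOn (fun z => ‖deriv f z - 1‖ ^ 2) (KK a b s)ᶜ → Loc a b s j κ →
    ∀ ε > 0, ∃ δ > 0, ∀ y ∉ KK a b s, infDist y (sq (a j) (b j) (s j)) < δ →
      ∃ ψ : ℝ → ℝ, ContDiff ℝ (⊤ : ℕ∞) ψ ∧ Function.Periodic ψ (2 * π) ∧ (∀ θ, 0 ≤ ψ θ) ∧
        (∫ θ in (0 : ℝ)..2 * π, ψ θ) = 1 ∧
        IntegrableOn (fun z => (ψ (arg (z - cen (a j) (b j) (s j))) : ℂ) *
          rad (fun w => f w * (κ w : ℂ)) (cen (a j) (b j) (s j)) z) (KK a b s)ᶜ ∧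
        ‖(∫ z in (KK a b s)ᶜ, (ψ (arg (z - cen (a j) (b j) (s j))) : ℂ) *
          rad (fun w => f w * (κ w : ℂ)) (cen (a j) (b j) (s j)) z) + f y‖ ≤ ε

def S_Clu : Prop :=
  ∀ (ι : Type) [Fintype ι] (a b s : ι → ℝ) (R : ℝ) (χ : ℂ → ℝ) (f : ℂ → ℂ) (r : ι → ℝ) (j : ι),
    Cfg a b s R → Ext a b s χ f r → ∃ c, Clus f (KK a b s)ᶜ (sq (a j) (b j) (s j)) c (r j)

def S_None : Prop :=
  ∀ (ι : Type) [Fintype ι] (a b s : ι → ℝ) (R : ℝ) (f : ℂ → ℂ) (c : ι → ℂ) (r : ι → ℝ),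
    Cfg a b s R → DifferentiableOn ℂ f (KK a b s)ᶜ →
    Tendsto (fun z => f z - z) (cocompact ℂ) (𝓝 0) → (∀ j, 0 ≤ r j) →
    (∀ j, Clus f (KK a b s)ᶜ (sq (a j) (b j) (s j)) (c j) (r j)) →
    ∀ w ∉ ⋃ j, closedBall (c j) (r j), ∃! z, z ∉ KK a b s ∧ f z = w

def S_Fin : Prop :=
  ∀ (ι : Type) [Fintype ι] (a b s : ι → ℝ) (R : ℝ) (f : ℂ → ℂ) (c : ι → ℂ) (r : ι → ℝ),
    Cfg a b s R → DifferentiableOn ℂ f (KK a b s)ᶜ →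
    Tendsto (fun z => f z - z) (cocompact ℂ) (𝓝 0) → (∀ j, 0 ≤ r j) →
    (∀ j, Clus f (KK a b s)ᶜ (sq (a j) (b j) (s j)) (c j) (r j)) →
    (∀ w ∉ ⋃ j, closedBall (c j) (r j), ∃! z, z ∉ KK a b s ∧ f z = w) →
    (∀ᵐ z ∂(volume.restrict ((KK a b s)ᶜ ∩ f ⁻¹' ⋃ j, closedBall (c j) (r j))),
      deriv f z = 0) → FK0 a b s f c r

def S_Dis : Prop :=
  ∀ (ι : Type) [Fintype ι] (a b s : ι → ℝ) (R : ℝ) (f : ℂ → ℂ) (c : ι → ℂ) (r : ι → ℝ),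
    Cfg a b s R → FK0 a b s f c r → FK a b s f c r

def S_Fk : Prop :=
  ∀ R : ℝ, ∃ C : ℝ, ∀ (ι : Type) [Fintype ι] (a b s : ι → ℝ), Cfg a b s R →
    ∃ f c r, FK a b s f c r ∧ IntegrableOn (fun z => ‖deriv f z - 1‖ ^ 2) (KK a b s)ᶜ ∧
      (∫ z in (KK a b s)ᶜ, ‖deriv f z - 1‖ ^ 2) ≤ C ∧ ∑ j, r j ^ 2 ≤ C

/-! ### Equicontinuity -/

def S_Max : Prop :=
  ∀ (ι : Type) [Fintype ι] (a b s : ι → ℝ) (R : ℝ) (f : ℂ → ℂ) (c : ι → ℂ) (r : ι → ℝ),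
    Cfg a b s R → FK a b s f c r → ∀ (z e : ℂ) (t : ℝ), 0 < t →
    ∀ w ∈ Phi a b s f c r (closedBall z t), ∃ w' ∈ Phi a b s f c r (sphere z t),
      (e * w).re ≤ (e * w').re

def S_Int : Prop :=
  ∀ (ι : Type) [Fintype ι] (a b s : ι → ℝ) (R : ℝ) (f : ℂ → ℂ) (c : ι → ℂ) (r : ι → ℝ),
    Cfg a b s R → FK a b s f c r → ∀ (e : ℂ) (A : Set ℂ), IsPreconnected A →
    OrdConnected ((fun w => (e * w).re) '' Phi a b s f c r A)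

def S_Len : Prop :=
  ∀ (ι : Type) [Fintype ι] (a b s : ι → ℝ) (R : ℝ) (f : ℂ → ℂ) (c : ι → ℂ) (r : ι → ℝ),
    Cfg a b s R → FK a b s f c r → ∀ (z c0 : ℂ) (r0 t : ℝ) (J : Finset ι),
    Own a b s f c r z c0 r0 → 0 < t →
    (∀ j, z ∉ sq (a j) (b j) (s j) → (sq (a j) (b j) (s j) ∩ sphere z t).Nonempty → j ∈ J) →
    ∀ y ∉ KK a b s, ‖y - z‖ ≤ t → ENNReal.ofReal (‖f y - c0‖ - r0) ≤
      arcLen f (KK a b s)ᶜ z t + ∑ j ∈ J, ENNReal.ofReal (2 * r j)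

def S_Pack : Prop :=
  ∀ (ι : Type) [Fintype ι] (a b s : ι → ℝ) (R : ℝ), Cfg a b s R → ∀ (z : ℂ) (ρ : ℝ)
    (J : Finset ι), 0 < ρ → (∀ j ∈ J, (sq (a j) (b j) (s j) ∩ closedBall z (2 * ρ)).Nonempty) →
    ∑ j ∈ J, min (s j) ρ ^ 2 ≤ 16 * π * ρ ^ 2

def S_Blk : Prop :=
  ∃ C0 > 0, ∀ (ι : Type) [Fintype ι] (a b s : ι → ℝ) (R : ℝ) (f : ℂ → ℂ) (c : ι → ℂ)
    (r : ι → ℝ), Cfg a b s R → FK a b s f c r →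
    IntegrableOn (fun z => ‖deriv f z - 1‖ ^ 2) (KK a b s)ᶜ →
    ∀ (z c0 : ℂ) (r0 ρ : ℝ) (J : Finset ι), Own a b s f c r z c0 r0 → 0 < ρ →
    (∀ j, z ∉ sq (a j) (b j) (s j) → (sq (a j) (b j) (s j) ∩ ann z ρ).Nonempty → j ∈ J) →
    ∀ y ∉ KK a b s, ‖y - z‖ ≤ ρ → ‖f y - c0‖ ≤ r0 + C0 *
      (ρ + √(∫ w in ann z ρ ∩ (KK a b s)ᶜ, ‖deriv f w - 1‖ ^ 2) + √(∑ j ∈ J, r j ^ 2))

def S_Sel : Prop :=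
  ∀ (T : Type) (a b s : T → ℝ) (R : ℝ), (∀ j, 0 < s j) →
    (Pairwise fun i j => Disjoint (sq (a i) (b i) (s i)) (sq (a j) (b j) (s j))) →
    (∀ j, sq (a j) (b j) (s j) ⊆ ball 0 R) → ∀ (z : ℂ) (ε : ℝ), 0 < ε →
    ∃ ρ : ℕ → ℝ, (∀ n, 0 < ρ n ∧ ρ n ≤ ε) ∧ (∀ m n, m < n → 2 * ρ n < ρ m) ∧
      ∀ j, z ∉ sq (a j) (b j) (s j) → ∀ m n, m < n →
        (sq (a j) (b j) (s j) ∩ ann z (ρ m)).Nonempty →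
        ¬ (sq (a j) (b j) (s j) ∩ ann z (ρ n)).Nonempty

def S_Ke : Prop :=
  ∀ (T : Type) (a b s : T → ℝ) (R C : ℝ), (∀ j, 0 < s j) →
    (Pairwise fun i j => Disjoint (sq (a i) (b i) (s i)) (sq (a j) (b j) (s j))) →
    (∀ j, sq (a j) (b j) (s j) ⊆ ball 0 R) → ∀ (z : ℂ) (ε : ℝ), 0 < ε →
    ∃ ρ > 0, ∀ (ι : Type) [Fintype ι] (e : ι → T) (f : ℂ → ℂ) (c : ι → ℂ) (r : ι → ℝ),
      Cfg (a ∘ e) (b ∘ e) (s ∘ e) R → FK (a ∘ e) (b ∘ e) (s ∘ e) f c r →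
      IntegrableOn (fun z => ‖deriv f z - 1‖ ^ 2) (KK (a ∘ e) (b ∘ e) (s ∘ e))ᶜ →
      (∫ z in (KK (a ∘ e) (b ∘ e) (s ∘ e))ᶜ, ‖deriv f z - 1‖ ^ 2) ≤ C → ∑ j, r j ^ 2 ≤ C →
      ∀ c0 r0, Own (a ∘ e) (b ∘ e) (s ∘ e) f c r z c0 r0 →
      ∀ y ∉ KK (a ∘ e) (b ∘ e) (s ∘ e), ‖y - z‖ < ρ → ‖f y - c0‖ ≤ r0 + ε

/-! ### The sphere -/

def S_SphA : Prop :=
  ∀ (K : Set ℂ) (f : ℂ → ℂ), IsCompact K → IsPreconnected Kᶜ → DiscMap K f →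
    ∃ (Ω : Set (OnePoint ℂ)) (F : OnePoint ℂ → OnePoint ℂ), IsCircleDomain Ω ∧
      BijOn F ((fun z : ℂ => (z : OnePoint ℂ)) '' K)ᶜ Ω ∧
      (∀ z : ℂ, F (z : OnePoint ℂ) = ((f z : ℂ) : OnePoint ℂ)) ∧
      ∃ φ : ℂ → ℂ, AnalyticAt ℂ φ 0 ∧ ∀ᶠ ζ in 𝓝 (0 : ℂ), F (chart false ζ) = chart false (φ ζ)

/-- the full statement -/
def Koebe : Prop :=
  ∀ G : Set (OnePoint ℂ), IsDomain G → ∃ (Ω : Set (OnePoint ℂ)) (f : OnePoint ℂ → OnePoint ℂ),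
    IsCircleDomain Ω ∧ BijOn f G Ω ∧ HolOn f G

end Vale.Agent.P116
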