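import Vale.Agent.P116.RStm
import Vale.Agent.P071.Riemann

/-! Step A, part R: the Riemann mapping theorem from the square root property. -/

open Set Filter Topology MeasureTheory Metric Complex
open scoped ENNReal NNReal ComplexConjugate

noncomputable section
namespace Vale.Agent.P116

namespace RrmA

open Vale.Agent.P071.Riemann

theorem sq_all {W : Set ℂ} (hW : SqrtP W) {g : ℂ → ℂ} (hg : DifferentiableOn ℂ g W)
    (h0 : ∀ z ∈ W, g z ≠ 0) : ∃ h : ℂ → ℂ, ContinuousOn h W ∧ ∀ z, h z ^ 2 = g z := by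
  classical
  obtain ⟨h, hc, hs⟩ := hW g hg h0
  choose r hr using fun z => IsAlgClosed.exists_pow_nat_eq (g z) two_pos
  refine ⟨W.piecewise h r, hc.congr fun z hz => piecewise_eq_of_mem _ _ _ hz, fun z => ?_⟩
  by_cases hz : z ∈ W
  · rw [piecewise_eq_of_mem _ _ _ hz, hs z hz]
  · rw [piecewise_eq_of_notMem _ _ _ hz, hr]

theorem improve {Ω : Set ℂ} (ho : IsOpen Ω) (hsc : SqrtP Ω) {x₀ : ℂ} (hx : x₀ ∈ Ω)
    {φ : ℂ → ℂ} (hφ : Fam Ω x₀ φ) {w : ℂ} (hw : ‖w‖ < 1) (hwn : w ∉ φ '' Ω) :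
    ∃ ψ, Fam Ω x₀ ψ ∧ ‖deriv φ x₀‖ < ‖deriv ψ x₀‖ := by
  have hφ1 : ∀ z ∈ Ω, ‖φ z‖ < 1 := fun z hz => mem_ball_zero_iff.mp (hφ.hm hz)
  have hφd : ∀ z ∈ Ω, HasDerivAt φ (deriv φ z) z := fun z hz =>
    (hφ.hd.differentiableAt (ho.mem_nhds hz)).hasDerivAt
  have hgd : ∀ z ∈ Ω, HasDerivAt (fun z => mob w (φ z))
      ((1 - conj w * w) / (1 - conj w * φ z) ^ 2 * deriv φ z) z := fun z hz =>
    (mob_deriv hw (hφ1 z hz)).comp z (hφd z hz)
  have hg0 : ∀ z ∈ Ω, mob w (φ z) ≠ 0 := by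
    intro z hz h
    rw [mob, div_eq_zero_iff] at h
    rcases h with h | h
    · exact hwn ⟨z, hz, sub_eq_zero.mp h⟩
    · exact den_ne hw (hφ1 z hz) h
  obtain ⟨h, hhc, hsq⟩ := sq_all hsc (g := fun z => mob w (φ z))
    (fun z hz => (hgd z hz).differentiableAt.differentiableWithinAt) hg0
  have hh0 : ∀ z ∈ Ω, h z ≠ 0 := by
    intro z hz h0
    have := hsq z
    rw [h0] at this
    exact hg0 z hz (by rw [← this]; simp)
  have hh1 : ∀ z ∈ Ω, ‖h z‖ < 1 := by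
    intro z hz
    have h1 := mob_norm hw (hφ1 z hz)
    rw [← hsq z, norm_pow] at h1
    exact (pow_lt_one_iff_of_nonneg (norm_nonneg _) two_ne_zero).mp h1
  have hhd := fun z (hz : z ∈ Ω) =>
    sqrt_deriv (hgd z hz) (hhc.continuousAt (ho.mem_nhds hz)) hsq (hh0 z hz)
  set c := h x₀ with hc
  have hc1 : ‖c‖ < 1 := hh1 x₀ hx
  have hψd := fun z (hz : z ∈ Ω) => (mob_deriv hc1 (hh1 z hz)).comp z (hhd z hz)
  refine ⟨mob c ∘ h, ⟨fun z hz => (hψd z hz).differentiableAt.differentiableWithinAt,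
    fun z hz => mem_ball_zero_iff.mpr (mob_norm hc1 (hh1 z hz)), ?_, by simp [mob, hc], ?_⟩, ?_⟩
  · intro a ha b hb hab
    have h1 : h a = h b := mob_inj hc1 (hh1 a ha) (hh1 b hb) hab
    have h2 : mob w (φ a) = mob w (φ b) := by rw [← hsq a, ← hsq b, h1]
    exact hφ.inj ha hb (mob_inj hw (hφ1 a ha) (hφ1 b hb) h2)
  · intro z hz
    rw [(hψd z hz).deriv]
    have e1 := den_ne hc1 hc1
    have e2 := den_ne hc1 (hh1 z hz)
    have e3 := den_ne hw hw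
    have e4 := den_ne hw (hφ1 z hz)
    have e5 := hφ.dne z hz
    have e6 := hh0 z hz
    exact mul_ne_zero (div_ne_zero e1 (pow_ne_zero _ e2)) (div_ne_zero
      (mul_ne_zero (div_ne_zero e3 (pow_ne_zero _ e4)) e5) (mul_ne_zero two_ne_zero e6))
  · rw [(hψd x₀ hx).deriv]
    have hcw : ‖w‖ = ‖c‖ ^ 2 := by
      have := hsq x₀
      rw [hφ.zero, mob] at this
      rw [← norm_pow, hc, this]
      simp
    simp only [norm_mul, norm_div, norm_pow, ← hc, norm_den c hc1, norm_den w hw, hφ.zero,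
      mul_zero, sub_zero, one_pow, div_one, hcw, Complex.norm_ofNat]
    exact improve_aux (norm_pos_iff.mpr (hh0 x₀ hx)) hc1 (norm_pos_iff.mpr (hφ.dne x₀ hx))

end RrmA

open Vale.Agent.P071.Riemann in
theorem s_Rrm : S_Rrm := by
  intro W ho hb hc hs
  obtain ⟨x₀, hx⟩ := hc.nonempty
  obtain ⟨φ, hφ, hmax⟩ := exists_max ho hc.isPreconnected hb hx
  refine ⟨φ, hφ.hd, hφ.inj, hφ.hm.image_subset.antisymm fun w hw => ?_⟩
  by_contra hwn
  obtain ⟨ψ, hψ, hlt⟩ := RrmA.improve ho hs hx hφ (mem_ball_zero_iff.mp hw) hwn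
  exact absurd (hmax ψ hψ) (not_le.mpr hlt)

end Vale.Agent.P116
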