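import Vale.Agent.P116.Rsq
import Vale.Agent.P116.Rrm
import Vale.Agent.P116.Rch
import Vale.Agent.P116.Rcmp
import Vale.Agent.P116.Rtr
import Vale.Agent.P116.Rpat
import Vale.Agent.P116.Rtest
import Vale.Agent.P116.Rloc
import Vale.Agent.P116.Rglue

/-! Step A, part R: isotropy from the disc model. -/

namespace Vale.Agent.P116

theorem s_iso (L : Lib) (h0 : S_iso0) : S_iso :=
  s_iso_of L (s_Rsq L) s_Rrm (s_Rch L)
    (s_Rloc L h0 (s_Rcmp L) (s_Rtr L) (s_Rtest L (s_Rtr L) (s_Rpat L))) (s_Rglue L (s_Rpat L))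

end Vale.Agent.P116
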